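import Vale.Agent.N142H.Rad

/-!
P142, harmonic measure form: cut-off functions, the concentration estimate and radial limits.
-/

open Complex MeasureTheory Metric Set Filter Topology
open scoped Real ComplexConjugate ENNReal

namespace Vale.Agent.N142H

open Vale.Agent.P142 Vale.Agent.P142.H838 Vale.Agent.N142

noncomputable section

variable {f F : ℂ → ℂ} {x w ζ : ℂ} {δ R q t : ℝ}

/-- The model cut-off function. -/
def b0 : ContDiffBump (0 : ℂ) := ⟨1, 2, one_pos, one_lt_two⟩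

lemma exists_KB : ∃ K : ℝ, 1 ≤ K ∧ ∀ w, ‖fderiv ℝ b0 w‖ ≤ K := by
  have h1 : ContDiff ℝ 1 b0 := b0.contDiff
  obtain ⟨C, hC⟩ := (h1.continuous_fderiv one_ne_zero).bounded_above_of_compact_support
    (b0.hasCompactSupport.fderiv ℝ)
  exact ⟨max C 1, le_max_right _ _, fun w => (hC w).trans (le_max_left _ _)⟩

/-- A bound of the gradient of the model cut-off function. -/
def KB : ℝ := exists_KB.choose

lemma one_le_KB : 1 ≤ KB := exists_KB.choose_spec.1

lemma KB_pos : 0 < KB := lt_of_lt_of_le one_pos one_le_KB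

/-- The cut-off function of the disc with centre `x` and radius `δ`. -/
def bmp (x : ℂ) (δ : ℝ) (w : ℂ) : ℝ := b0 (δ⁻¹ • (w - x))

lemma bmp_contDiff (x : ℂ) (δ : ℝ) : ContDiff ℝ 1 (bmp x δ) :=
  (b0.contDiff (n := 1)).comp ((contDiff_id.sub contDiff_const).const_smul δ⁻¹)

lemma bmp_cont (x : ℂ) (δ : ℝ) : Continuous (bmp x δ) := (bmp_contDiff x δ).continuous

lemma bmp_nonneg (x : ℂ) (δ : ℝ) (w : ℂ) : 0 ≤ bmp x δ w := b0.nonneg

lemma bmp_le (x : ℂ) (δ : ℝ) (w : ℂ) : bmp x δ w ≤ 1 := b0.le_one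

lemma bmp_one (hδ : 0 < δ) (h : ‖w - x‖ ≤ δ) : bmp x δ w = 1 := by
  apply b0.one_of_mem_closedBall
  rw [mem_closedBall_zero_iff, norm_smul, norm_inv, Real.norm_eq_abs, abs_of_pos hδ,
    inv_mul_le_iff₀ hδ]
  simpa [b0] using h

lemma bmp_zero (hδ : 0 < δ) (h : 2 * δ ≤ ‖w - x‖) : bmp x δ w = 0 := by
  apply b0.zero_of_le_dist
  rw [dist_zero_right, norm_smul, norm_inv, Real.norm_eq_abs, abs_of_pos hδ,
    le_inv_mul_iff₀ hδ]
  simpa [b0, mul_comm] using h

lemma bmp_grad (hδ : 0 < δ) (w : ℂ) : ‖fderiv ℝ (bmp x δ) w‖ ≤ KB / δ := by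
  have h1 : HasFDerivAt (fun w : ℂ => δ⁻¹ • (w - x)) (δ⁻¹ • ContinuousLinearMap.id ℝ ℂ) w :=
    ((hasFDerivAt_id w).sub_const x).const_smul δ⁻¹
  have h2 : HasFDerivAt b0 (fderiv ℝ b0 (δ⁻¹ • (w - x))) (δ⁻¹ • (w - x)) :=
    ((b0.contDiff (n := 1)).differentiable one_ne_zero _).hasFDerivAt
  have h3 : fderiv ℝ (bmp x δ) w = (fderiv ℝ b0 (δ⁻¹ • (w - x))).comp
      (δ⁻¹ • ContinuousLinearMap.id ℝ ℂ) := (h2.comp w h1).fderiv
  rw [h3]
  refine (ContinuousLinearMap.opNorm_comp_le _ _).trans ?_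
  rw [norm_smul, ContinuousLinearMap.norm_id, mul_one, norm_inv, Real.norm_eq_abs, abs_of_pos hδ,
    div_eq_mul_inv]
  exact mul_le_mul_of_nonneg_right (exists_KB.choose_spec.2 _) (by positivity)

lemma bmp_grad_in (hδ : 0 < δ) (h : ‖w - x‖ < δ) : fderiv ℝ (bmp x δ) w = 0 := by
  have h1 : bmp x δ =ᶠ[𝓝 w] fun _ => 1 := by
    filter_upwards [isOpen_ball.mem_nhds (mem_ball_iff_norm.mpr h)] with y hy
    exact bmp_one hδ (mem_ball_iff_norm.mp hy).le
  rw [h1.fderiv_eq]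
  exact fderiv_const_apply _

lemma bmp_grad_out (hδ : 0 < δ) (h : w ∉ closedBall x (2 * δ)) : fderiv ℝ (bmp x δ) w = 0 := by
  have h1 : bmp x δ =ᶠ[𝓝 w] fun _ => 0 := by
    filter_upwards [isClosed_closedBall.isOpen_compl.mem_nhds h] with y hy
    exact bmp_zero hδ (le_of_lt (by simpa [dist_eq_norm] using hy))
  rw [h1.fderiv_eq]
  exact fderiv_const_apply _

lemma bmp_compact (hδ : 0 < δ) : HasCompactSupport (bmp x δ) := by
  refine HasCompactSupport.intro (isCompact_closedBall x (2 * δ)) fun y hy => ?_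
  exact bmp_zero hδ (le_of_lt (by simpa [dist_eq_norm] using hy))

lemma cball_vol {c : ℂ} {ρ : ℝ} (hρ : 0 ≤ ρ) :
    volume (closedBall c ρ) = ENNReal.ofReal (π * ρ ^ 2) := by
  rw [Measure.addHaar_closedBall_eq_addHaar_ball, ball_vol hρ]

lemma ring_vol {s : ℝ} (h0 : 0 ≤ s) (h1 : s ≤ 1) :
    volume ((ball (0 : ℂ) (1 - s))ᶜ ∩ ball 0 1) ≤ ENNReal.ofReal (2 * π * s) := by
  have e : (ball (0 : ℂ) (1 - s))ᶜ ∩ ball 0 1 = ball 0 1 \ ball 0 (1 - s) := inter_comm _ _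
  rw [e, measure_sdiff (ball_subset_ball (by linarith)) measurableSet_ball.nullMeasurableSet
    measure_ball_lt_top.ne, ball_vol zero_le_one, ball_vol (by linarith),
    ← ENNReal.ofReal_sub _ (by positivity)]
  apply ENNReal.ofReal_le_ofReal
  nlinarith [Real.pi_pos, mul_nonneg Real.pi_pos.le (sq_nonneg s)]

lemma growth' (hF : Univ F) (hζ : ∀ z ∈ ball (0 : ℂ) 1, F z ≠ ζ) {z : ℂ}
    (hz : z ∈ ball (0 : ℂ) 1) : (1 - ‖z‖) ^ 2 * ‖F z - ζ‖ ≤ 4 * ‖F 0 - ζ‖ := by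
  have h := growth (univ_sub hF ζ) (fun y hy => sub_ne_zero.mpr (hζ y hy)) hz
  have h1 := one_sub_pos hz
  rw [Real.rpow_neg h1.le, Real.rpow_two] at h
  have h2 : 0 < (1 - ‖z‖) ^ 2 := by positivity
  calc (1 - ‖z‖) ^ 2 * ‖F z - ζ‖ ≤ (1 - ‖z‖) ^ 2 * (‖F 0 - ζ‖ * (4 * ((1 - ‖z‖) ^ 2)⁻¹)) := by
        gcongr
    _ = _ := by field_simp

lemma cont_circ (hf : DifferentiableOn ℂ f (ball 0 1)) {r : ℝ} (h0 : 0 ≤ r) (h1 : r < 1) :
    Continuous fun θ => f (circleMap 0 r θ) :=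
  hf.continuousOn.comp_continuous (continuous_circleMap 0 r) fun θ => circleMap_mem_unit h0 h1 θ

/-- **Concentration**: most of the image of a circle is near an omitted value which is near the
image of the centre. -/
lemma conc (hF : Univ F) (hζ : ∀ z ∈ ball (0 : ℂ) 1, F z ≠ ζ) (hR : 0 < R) (hq : 0 < q)
    (hq1 : q ≤ 1 / 2) (h : ‖F 0 - ζ‖ ≤ q ^ 4 * R) (h1 : 1 / 2 ≤ t) (ht : t < 1) :
    ∫⁻ θ in Ioo (-π) π, ENNReal.ofReal (1 - bmp ζ R (F (circleMap 0 t θ))) ≤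
      ENNReal.ofReal (16 * π * KB * q) := by
  have hK := KB_pos
  have hq2 : q ^ 2 ≤ 1 / 4 := by nlinarith
  have hq4 : q ^ 4 ≤ 1 / 16 := by nlinarith [sq_nonneg q]
  have h2 := mean_le (contDiffOn_comp (bmp_contDiff ζ R) hF.1) h1 ht
  have h3 : ∀ θ, bmp ζ R (F (circleMap 0 (1 / 2) θ)) = 1 := by
    intro θ
    apply bmp_one hR
    have h4 := growth' hF hζ (circleMap_mem_unit (s := 1 / 2) (by norm_num) (by norm_num) θ)
    rw [norm_circleMap_zero, abs_of_pos (by norm_num)] at h4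
    nlinarith
  have h4 := grad_le (bmp_contDiff ζ R) hF (τ := R / q) (by positivity) (bmp_grad hR)
    (S := closedBall ζ (2 * R)) (A := (ball (0 : ℂ) (1 - 2 * q ^ 2))ᶜ) measurableSet_closedBall
    measurableSet_ball.compl (fun w hw => bmp_grad_out hR hw) (fun z hz hA => by
      apply bmp_grad_in hR
      have h5 := growth' hF hζ hz
      rw [notMem_compl_iff, mem_ball_zero_iff] at hA
      have h6 : 2 * q ^ 2 < 1 - ‖z‖ := by linarith
      have h7 : (2 * q ^ 2) ^ 2 < (1 - ‖z‖) ^ 2 := by gcongr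
      by_contra h8
      have h9 : (1 - ‖z‖) ^ 2 * R ≤ (1 - ‖z‖) ^ 2 * ‖F z - ζ‖ := by gcongr; exact not_lt.mp h8
      nlinarith)
  have h5 := ring_vol (s := 2 * q ^ 2) (by positivity) (by linarith)
  rw [cball_vol (by positivity)] at h4
  refine le_trans (lintegral_mono fun θ => ?_) (h2.trans ?_)
  · simp only
    rw [h3, ← ofReal_norm, Real.norm_eq_abs, abs_sub_comm]
    exact ENNReal.ofReal_le_ofReal (le_abs_self _)
  · refine (mul_le_mul_right (h4.trans (add_le_add_left (mul_le_mul_right h5 _) _)) 2).trans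
      (le_of_eq ?_)
    have : (2 : ℝ≥0∞) = ENNReal.ofReal 2 := by simp
    rw [this, ← ENNReal.ofReal_mul (by positivity), ← ENNReal.ofReal_mul (by positivity),
      ← ENNReal.ofReal_add (by positivity) (by positivity), ← ENNReal.ofReal_mul (by positivity)]
    congr 1
    field_simp
    ring

/-- The concentration estimate for the lower limits. -/
lemma conc_liminf (hF : Univ F) (hζ : ∀ z ∈ ball (0 : ℂ) 1, F z ≠ ζ) (hR : 0 < R) (hq : 0 < q)
    (hq1 : q ≤ 1 / 2) (h : ‖F 0 - ζ‖ ≤ q ^ 4 * R) :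
    ∫⁻ θ in Ioo (-π) π, liminf (fun n =>
      ENNReal.ofReal (1 - bmp ζ R (F (circleMap 0 (rr n) θ)))) atTop ≤
      ENNReal.ofReal (16 * π * KB * q) := by
  refine (lintegral_liminf_le fun n => ?_).trans ?_
  · exact (continuous_const.sub ((bmp_cont ζ R).comp
      (cont_circ hF.1 (rr_pos n).le (rr_lt n)))).measurable.ennreal_ofReal
  · exact liminf_le_of_frequently_le' (Frequently.of_forall fun n =>
      conc hF hζ hR hq hq1 h (rr_ge n) (rr_lt n))

lemma ae_limit_comp {E : Type*} [NormedAddCommGroup E] [NormedSpace ℝ E] [CompleteSpace E]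
    {T : ℂ → E} (hT : ContDiff ℝ 1 T) (hc : HasCompactSupport T) (hf : Univ f) :
    ∀ᵐ θ ∂(volume.restrict (Ioo (-π) π)),
      ∃ l, Tendsto (fun n => T (f (circleMap 0 (rr n) θ))) atTop (𝓝 l) := by
  obtain ⟨M, hM⟩ := (hT.continuous_fderiv one_ne_zero).bounded_above_of_compact_support
    (hc.fderiv ℝ)
  have h1 := grad_le hT hf one_pos hM (S := tsupport T) (A := univ)
    (isClosed_tsupport T).measurableSet MeasurableSet.univ
    (fun w hw => fderiv_of_notMem_tsupport ℝ hw) (fun z _ hA => absurd (mem_univ z) hA)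
  refine ae_limit (contDiffOn_comp hT hf.1) (ne_top_of_le_ne_top ?_ h1)
  refine ENNReal.add_ne_top.mpr ⟨ENNReal.mul_ne_top ENNReal.ofReal_ne_top ?_,
    ENNReal.mul_ne_top ENNReal.ofReal_ne_top hc.isCompact.measure_lt_top.ne⟩
  rw [univ_inter]
  exact measure_ball_lt_top.ne

/-- Boundary values. -/
def bv (f : ℂ → ℂ) (u : ℂ) : ℂ := limUnder atTop fun n => f ((rr n : ℂ) * u)

/-- **Radial limits** of a univalent function exist almost everywhere. -/
theorem ae_bv (hf : Univ f) : ∀ᵐ θ ∂(volume.restrict (Ioo (-π) π)),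
    Tendsto (fun n => f (circleMap 0 (rr n) θ)) atTop (𝓝 (bv f (circleMap 0 1 θ))) := by
  obtain ⟨c, hc⟩ := exists_omitted hf
  have hp : ∀ m : ℕ, (0 : ℝ) < m + 1 := fun m => by positivity
  have h1 : ∀ᵐ θ ∂(volume.restrict (Ioo (-π) π)), ∀ m : ℕ, ∃ l,
      Tendsto (fun n => bmp c (m + 1) (f (circleMap 0 (rr n) θ))) atTop (𝓝 l) :=
    ae_all_iff.mpr fun m => ae_limit_comp (bmp_contDiff c _) (bmp_compact (hp m)) hf
  have h2 : ∀ᵐ θ ∂(volume.restrict (Ioo (-π) π)), ∀ m : ℕ, ∃ l,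
      Tendsto (fun n => bmp c (m + 1) (f (circleMap 0 (rr n) θ)) • f (circleMap 0 (rr n) θ))
        atTop (𝓝 l) :=
    ae_all_iff.mpr fun m => ae_limit_comp (T := fun w => bmp c (m + 1) w • w)
      ((bmp_contDiff c _).smul contDiff_id) ((bmp_compact (hp m)).smul_right (f' := id)) hf
  have h3 : ∀ᵐ θ ∂(volume.restrict (Ioo (-π) π)), ¬ ∀ m : ℕ,
      Tendsto (fun n => bmp c (m + 1) (f (circleMap 0 (rr n) θ))) atTop (𝓝 0) := by
    rw [ae_iff]
    simp only [not_not]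
    refine le_antisymm (ENNReal.le_of_forall_pos_le_add fun ε hε _ => ?_) zero_le
    have hK := KB_pos
    set q : ℝ := min (1 / 2) (ε / (16 * π * KB)) with hq
    have hq0 : 0 < q := lt_min (by norm_num) (by positivity)
    obtain ⟨m, hm⟩ := exists_nat_ge (‖f 0 - c‖ / q ^ 4)
    have h4 : ‖f 0 - c‖ ≤ q ^ 4 * (m + 1) := by
      rw [div_le_iff₀ (by positivity)] at hm
      nlinarith [pow_pos hq0 4]
    have h5 := conc_liminf hf hc (hp m) hq0 (min_le_left _ _) h4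
    have h6 := mul_meas_ge_le_lintegral (μ := volume.restrict (Ioo (-π) π)) (f := fun θ =>
      liminf (fun n => ENNReal.ofReal (1 - bmp c (m + 1) (f (circleMap 0 (rr n) θ)))) atTop)
      (Measurable.liminf fun n => (continuous_const.sub ((bmp_cont c _).comp
        (cont_circ hf.1 (rr_pos n).le (rr_lt n)))).measurable.ennreal_ofReal) 1
    rw [one_mul] at h6
    refine le_trans (measure_mono fun θ hθ => ?_) (h6.trans (h5.trans ?_))
    · have h7 := ENNReal.tendsto_ofReal ((tendsto_const_nhds (x := (1 : ℝ))).sub (hθ m))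
      rw [mem_ofPred_eq, h7.liminf_eq]
      simp
    · rw [zero_add, ← ENNReal.ofReal_coe_nnreal]
      apply ENNReal.ofReal_le_ofReal
      have h8 : q ≤ ε / (16 * π * KB) := min_le_right _ _
      rw [le_div_iff₀ (by positivity)] at h8
      linarith
  filter_upwards [h1, h2, h3] with θ h1 h2 h3
  obtain ⟨m, hm⟩ := not_forall.mp h3
  obtain ⟨s, hs⟩ := h1 m
  obtain ⟨l, hl⟩ := h2 m
  have hs0 : s ≠ 0 := fun h => hm (h ▸ hs)
  have h4 : Tendsto (fun n => f (circleMap 0 (rr n) θ)) atTop (𝓝 (s⁻¹ • l)) := by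
    refine ((hs.inv₀ hs0).smul hl).congr' ?_
    filter_upwards [hs.eventually_ne hs0] with n hn
    rw [smul_smul, inv_mul_cancel₀ hn, one_smul]
  simp only [circ_eq (rr _) θ] at h4 ⊢
  exact tendsto_nhds_limUnder ⟨_, h4⟩

end

end Vale.Agent.N142H
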