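import Vale.Agent.N142H.Max

/-!
P142, harmonic measure form: consequences of the weak type estimate for families of discs.
-/

open Complex MeasureTheory Metric Set Filter Topology
open scoped Real ComplexConjugate ENNReal NNReal

namespace Vale.Agent.N142H

open Vale.Agent.P142 Vale.Agent.P142.H838 Vale.Agent.N142

noncomputable section

variable {ω : Measure ℂ} {A l L p : ℝ}

/-- The maximal function of `ω` is of weak type four with constant `A`. -/
def WT (ω : Measure ℂ) (A : ℝ) : Prop :=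
  ∀ l : ℝ, 0 < l → volume {x | ∃ r : ℝ, 0 < r ∧ l * r < ω.real (ball x r)} ≤
    ENNReal.ofReal (A / l ^ 4)

lemma lint_Ioc {c e : ℝ} (hc : 0 ≤ c) (hL : 0 < L) (he : 0 < e) :
    ∫⁻ t in Ioc 0 L, ENNReal.ofReal (c * t ^ (e - 1)) = ENNReal.ofReal (c * (L ^ e / e)) := by
  have h1 : IntegrableOn (fun t : ℝ => t ^ (e - 1)) (Ioc 0 L) :=
    (intervalIntegrable_iff_integrableOn_Ioc_of_le hL.le).mp
      (intervalIntegral.intervalIntegrable_rpow' (by linarith))
  rw [← ofReal_integral_eq_lintegral_ofReal (h1.const_mul c)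
    ((ae_restrict_iff' measurableSet_Ioc).mpr (Eventually.of_forall fun t ht =>
      mul_nonneg hc (Real.rpow_nonneg ht.1.le _))), integral_const_mul,
    ← intervalIntegral.integral_of_le hL.le, integral_rpow (Or.inl (by linarith))]
  simp [Real.zero_rpow he.ne']

lemma lint_Ioi {c e : ℝ} (hc : 0 ≤ c) (hL : 0 < L) (he : e < 0) :
    ∫⁻ t in Ioi L, ENNReal.ofReal (c * t ^ (e - 1)) = ENNReal.ofReal (c * (L ^ e / -e)) := by
  rw [← ofReal_integral_eq_lintegral_ofReal
    ((integrableOn_Ioi_rpow_of_lt (by linarith) hL).const_mul c)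
    ((ae_restrict_iff' measurableSet_Ioi).mpr (Eventually.of_forall fun t ht =>
      mul_nonneg hc (Real.rpow_nonneg (hL.trans ht).le _))), integral_const_mul,
    integral_Ioi_rpow_of_lt (by linarith) hL]
  congr 2
  rw [sub_add_cancel, neg_div, div_neg]

lemma pow_four_mul {t : ℝ} (ht : 0 < t) (A p : ℝ) :
    A / t ^ 4 * t ^ (p - 1) = A * t ^ (p - 4 - 1) := by
  rw [show p - 4 - 1 = p - 1 - (4 : ℕ) by push_cast; ring, Real.rpow_sub ht (p - 1),
    Real.rpow_natCast]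
  field_simp

lemma layer_lt {α : Type*} [MeasurableSpace α] (μ : Measure α) {v : α → ℝ} (hv : Measurable v)
    (hvL : ∀ a, 1 ≤ v a) (hp0 : 0 < p) (hp : p < 4) (hA : 0 ≤ A)
    (h : ∀ t : ℝ, 0 < t → μ {a | t ≤ v a} ≤ ENNReal.ofReal (A / t ^ 4)) :
    ∫⁻ a, ENNReal.ofReal (v a ^ p) ∂μ ≤ ENNReal.ofReal (4 / (4 - p) * A) := by
  rw [lintegral_rpow_eq_lintegral_meas_le_mul μ
    (Eventually.of_forall fun a => zero_le_one.trans (hvL a)) hv.aemeasurable hp0,
    ← Ioc_union_Ioi_eq_Ioi zero_le_one]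
  have h1 : ∫⁻ t in Ioc 0 1, μ {a | t ≤ v a} * ENNReal.ofReal (t ^ (p - 1)) ≤
      ENNReal.ofReal (A * (1 ^ p / p)) := by
    rw [← lint_Ioc hA one_pos hp0]
    refine setLIntegral_mono' measurableSet_Ioc fun t _ => ?_
    rw [ENNReal.ofReal_mul hA]
    exact mul_le_mul_left ((measure_mono fun a _ => hvL a).trans
      ((h 1 one_pos).trans (le_of_eq (by simp)))) _
  have h2 : ∫⁻ t in Ioi 1, μ {a | t ≤ v a} * ENNReal.ofReal (t ^ (p - 1)) ≤
      ENNReal.ofReal (A * (1 ^ (p - 4) / -(p - 4))) := by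
    rw [← lint_Ioi hA one_pos (by linarith)]
    refine setLIntegral_mono' measurableSet_Ioi fun t ht => ?_
    have ht0 : 0 < t := one_pos.trans ht
    rw [← pow_four_mul ht0, ENNReal.ofReal_mul (by positivity)]
    exact mul_le_mul_left (h t ht0) _
  refine (mul_le_mul_right ((lintegral_union_le _ _ _).trans (add_le_add h1 h2)) _).trans
    (le_of_eq ?_)
  have h4 : 0 < 4 - p := by linarith
  rw [Real.one_rpow, Real.one_rpow, neg_sub, ← ENNReal.ofReal_add (by positivity) (by positivity),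
    ← ENNReal.ofReal_mul hp0.le]
  congr 1
  field_simp
  ring

lemma ediam_closedBall_le (x : ℂ) (r : ℝ) : ediam (closedBall x r) ≤ ENNReal.ofReal (2 * r) :=
  ediam_le_of_forall_dist_le fun a ha b hb => by
    linarith [dist_triangle_right a b x, mem_closedBall.mp ha, mem_closedBall.mp hb]

lemma layer_gt {α : Type*} [MeasurableSpace α] (μ : Measure α) {v : α → ℝ} (hv : Measurable v)
    (hL : 0 < L) (hv0 : ∀ a, 0 ≤ v a) (hvL : ∀ a, v a ≤ L) (hp : 4 < p) (hA : 0 ≤ A)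
    (h : ∀ t : ℝ, 0 < t → μ {a | t ≤ v a} ≤ ENNReal.ofReal (A / t ^ 4)) :
    ∫⁻ a, ENNReal.ofReal (v a ^ p) ∂μ ≤ ENNReal.ofReal (p / (p - 4) * A * L ^ (p - 4)) := by
  have hp0 : 0 < p := by linarith
  rw [lintegral_rpow_eq_lintegral_meas_le_mul μ (Eventually.of_forall hv0) hv.aemeasurable hp0,
    ← Ioc_union_Ioi_eq_Ioi hL.le]
  have h1 : ∫⁻ t in Ioi L, μ {a | t ≤ v a} * ENNReal.ofReal (t ^ (p - 1)) = 0 := by
    refine setLIntegral_eq_zero measurableSet_Ioi fun t ht => ?_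
    have : {a | t ≤ v a} = ∅ := eq_empty_of_forall_notMem fun a ha =>
      absurd ((hvL a).trans_lt ht) (not_lt.mpr ha)
    simp [this]
  have h2 : ∫⁻ t in Ioc 0 L, μ {a | t ≤ v a} * ENNReal.ofReal (t ^ (p - 1)) ≤
      ENNReal.ofReal (A * (L ^ (p - 4) / (p - 4))) := by
    rw [← lint_Ioc hA hL (by linarith)]
    refine setLIntegral_mono' measurableSet_Ioc fun t ht => ?_
    rw [← pow_four_mul ht.1, ENNReal.ofReal_mul (div_nonneg hA (pow_pos ht.1 4).le)]
    exact mul_le_mul_left (h t ht.1) _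
  refine (mul_le_mul_right ((lintegral_union_le _ _ _).trans
    (add_le_add h2 h1.le)) _).trans (le_of_eq ?_)
  rw [add_zero, ← ENNReal.ofReal_mul hp0.le]
  congr 1
  ring

section families

variable {ι : Type*} [Countable ι] {x : ι → ℂ} {r v : ι → ℝ} [IsFiniteMeasure ω]

/-- **Packing inequality.** -/
lemma WT.pack (h : WT ω A) (hr : ∀ i, 0 < r i)
    (hd : Pairwise (Function.onFun Disjoint fun i => ball (x i) (r i))) (hl : 0 < l)
    (hω : ∀ i, l * r i ≤ ω.real (ball (x i) (r i))) :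
    ∑' i, ENNReal.ofReal (r i ^ 2) ≤ ENNReal.ofReal (27 * A / l ^ 4) := by
  have h1 := h (l / 3) (by positivity)
  have h2 : ⋃ i, ball (x i) (r i) ⊆ {x | ∃ r : ℝ, 0 < r ∧ l / 3 * r < ω.real (ball x r)} := by
    refine iUnion_subset fun i y hy => ⟨2 * r i, by linarith [hr i], ?_⟩
    have h3 : ω.real (ball (x i) (r i)) ≤ ω.real (ball y (2 * r i)) := by
      refine measureReal_mono (ball_subset_ball' ?_)
      rw [dist_comm]
      linarith [mem_ball.mp hy]
    nlinarith [hω i, mul_pos hl (hr i)]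
  have h3 := (measure_mono h2).trans h1
  rw [measure_iUnion hd fun i => measurableSet_ball] at h3
  have h4 : ENNReal.ofReal 3 * ∑' i, ENNReal.ofReal (r i ^ 2) ≤
      ENNReal.ofReal 3 * ENNReal.ofReal (27 * A / l ^ 4) := by
    rw [← ENNReal.tsum_mul_left, ← ENNReal.ofReal_mul (by norm_num)]
    refine le_trans (ENNReal.tsum_le_tsum fun i => ?_) (h3.trans (le_of_eq ?_))
    · rw [ball_vol (hr i).le, ← ENNReal.ofReal_mul (by norm_num)]
      exact ENNReal.ofReal_le_ofReal (mul_le_mul_of_nonneg_right Real.pi_gt_three.le (sq_nonneg _))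
    · congr 1
      field_simp
      ring
  exact (ENNReal.mul_le_mul_iff_right (by simp) ENNReal.ofReal_ne_top).mp h4

lemma WT.layer (h : WT ω A) (hr : ∀ i, 0 < r i)
    (hd : Pairwise (Function.onFun Disjoint fun i => ball (x i) (r i)))
    (hω : ∀ i, v i * r i ≤ ω.real (ball (x i) (r i))) :
    ∃ (_ : MeasurableSpace ι) (μ : Measure ι), Measurable v ∧
      (∀ t : ℝ, 0 < t → μ {a | t ≤ v a} ≤ ENNReal.ofReal (27 * A / t ^ 4)) ∧
      ∀ p : ℝ, ∫⁻ a, ENNReal.ofReal (v a ^ p) ∂μ =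
        ∑' i, ENNReal.ofReal (r i ^ 2) * ENNReal.ofReal (v i ^ p) := by
  let _ : MeasurableSpace ι := ⊤
  refine ⟨⊤, Measure.count.withDensity fun i => ENNReal.ofReal (r i ^ 2), measurable_from_top,
    fun t ht => ?_, fun p => ?_⟩
  · rw [withDensity_apply _ MeasurableSpace.measurableSet_top,
      ← lintegral_indicator MeasurableSpace.measurableSet_top, lintegral_count, ← tsum_subtype]
    exact h.pack (ι := {a | t ≤ v a}) (x := fun i => x i) (r := fun i => r i) (fun i => hr i)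
      (fun i j hij => hd (Subtype.coe_ne_coe.mpr hij)) ht fun i =>
        (mul_le_mul_of_nonneg_right i.2 (hr i).le).trans (hω i)
  · rw [lintegral_withDensity_eq_lintegral_mul _ measurable_from_top measurable_from_top,
      lintegral_count]
    rfl

end families

variable [IsFiniteMeasure ω] {S : Finset ℂ} {r c : ℂ → ℝ} {δ α : ℝ}

lemma tsum_finset (S : Finset ℂ) {g : ℂ → ℝ} (hg : ∀ x ∈ S, 0 ≤ g x) :
    ∑' i : S, ENNReal.ofReal (g i) = ENNReal.ofReal (∑ x ∈ S, g x) := by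
  rw [Finset.tsum_subtype S fun x => ENNReal.ofReal (g x), ENNReal.ofReal_sum_of_nonneg hg]

lemma WT.pack_fin (h : WT ω A) (hA : 0 ≤ A) (hr : ∀ x ∈ S, 0 < r x)
    (hd : (S : Set ℂ).PairwiseDisjoint fun x => ball x (r x)) (hl : 0 < l)
    (hω : ∀ x ∈ S, l * r x ≤ ω.real (ball x (r x))) : ∑ x ∈ S, r x ^ 2 ≤ 27 * A / l ^ 4 := by
  have h1 := h.pack (ι := S) (x := fun i => i) (r := fun i => r i) (fun i => hr i i.2)
    (fun i j hij => hd i.2 j.2 (Subtype.coe_ne_coe.mpr hij)) hl fun i => hω i i.2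
  rw [tsum_finset S (g := fun x => r x ^ 2) fun x _ => sq_nonneg _] at h1
  exact (ENNReal.ofReal_le_ofReal_iff (by positivity)).mp h1

lemma WT.count (h : WT ω A) (hA : 0 ≤ A) (hδ : 0 < δ)
    (hd : (S : Set ℂ).PairwiseDisjoint fun x => ball x δ) (hl : 0 < l)
    (hω : ∀ x ∈ S, l ≤ ω.real (ball x δ)) : (S.card : ℝ) ≤ 27 * A * δ ^ 2 / l ^ 4 := by
  have h1 := h.pack_fin (r := fun _ => δ) (l := l / δ) hA (fun _ _ => hδ) hd (by positivity)
    fun x hx => by rw [div_mul_cancel₀ _ hδ.ne']; exact hω x hx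
  rw [Finset.sum_const, nsmul_eq_mul, ← le_div_iff₀ (by positivity)] at h1
  refine h1.trans (le_of_eq ?_)
  field_simp

lemma WT.beurling (h : WT ω A) (hA : 0 ≤ A) (hδ : 0 < δ) (x : ℂ) :
    ω.real (ball x δ) ^ 4 ≤ 27 * A * δ ^ 2 := by
  rcases (measureReal_nonneg (μ := ω) (s := ball x δ)).eq_or_lt with h0 | h0
  · rw [← h0]
    have : 0 ≤ 27 * A * δ ^ 2 := by positivity
    simpa using this
  have h1 := h.count (S := {x}) hA hδ (by simp) h0 (by simp)
  rwa [Finset.card_singleton, Nat.cast_one, one_le_div (by positivity)] at h1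

lemma WT.sum_pow (h : WT ω A) (hA : 0 < A) (hδ : 0 < δ)
    (hd : (S : Set ℂ).PairwiseDisjoint fun x => ball x δ) (hp : 4 < p) :
    ∑ x ∈ S, ω.real (ball x δ) ^ p ≤ p / (p - 4) * (27 * A * δ ^ 2) ^ (p / 4) := by
  obtain ⟨_, μ, h1, h2, h3⟩ := h.layer (ι := S) (x := fun i => i) (r := fun _ => δ)
    (v := fun i => ω.real (ball (i : ℂ) δ) / δ) (fun _ => hδ)
    (fun i j hij => hd i.2 j.2 (Subtype.coe_ne_coe.mpr hij))
    fun i => (div_mul_cancel₀ _ hδ.ne').le
  set B : ℝ := (27 * A * δ ^ 2) ^ (1 / 4 : ℝ) with hB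
  have hB0 : 0 < B := by positivity
  have hB4 : B ^ 4 = 27 * A * δ ^ 2 := by
    rw [hB, ← Real.rpow_natCast, ← Real.rpow_mul (by positivity)]
    norm_num
  have h4 := layer_gt μ h1 (L := B / δ) (by positivity) (fun i => by positivity)
    (fun i => div_le_div_of_nonneg_right (le_of_pow_le_pow_left₀ (n := 4) (by norm_num) hB0.le
      (hB4 ▸ h.beurling hA.le hδ i)) hδ.le) hp (by positivity) h2
  rw [h3] at h4
  simp only [← ENNReal.ofReal_mul (sq_nonneg δ)] at h4
  have hp4 : 0 < p - 4 := by linarith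
  rw [tsum_finset S (g := fun x => δ ^ 2 * (ω.real (ball x δ) / δ) ^ p) fun x _ => by positivity,
    ENNReal.ofReal_le_ofReal_iff (by positivity), ← Finset.mul_sum] at h4
  simp only [Real.div_rpow measureReal_nonneg hδ.le, Real.div_rpow hB0.le hδ.le,
    ← Finset.sum_div] at h4
  have e1 : (27 * A * δ ^ 2) ^ (p / 4) = B ^ (p - 4) * (27 * A * δ ^ 2) := by
    rw [← hB4, ← Real.rpow_natCast, ← Real.rpow_mul hB0.le, ← Real.rpow_add hB0]
    congr 1
    push_cast
    ring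
  have e2 : δ ^ p = δ ^ (p - 4) * δ ^ 4 := by
    rw [← Real.rpow_natCast, ← Real.rpow_add hδ]
    congr 1
    push_cast
    ring
  have h5 : 0 < δ ^ (p - 4) := by positivity
  rw [e2] at h4
  rw [e1]
  generalize ∑ x ∈ S, ω.real (ball x δ) ^ p = T at h4 ⊢
  calc T = δ ^ 2 * (T / (δ ^ (p - 4) * δ ^ 4)) * (δ ^ (p - 4) * δ ^ 2) := by field_simp
    _ ≤ _ := mul_le_mul_of_nonneg_right h4 (by positivity)
    _ = _ := by field_simp

lemma WT.tips (h : WT ω A) (hA : 0 ≤ A) (hc : ∀ x ∈ S, 0 < c x)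
    (hω : ∀ x ∈ S, ∀ᶠ r in 𝓝[>] (0 : ℝ), c x * √r ≤ ω.real (ball x r)) :
    ∑ x ∈ S, c x ^ 4 ≤ 27 * A := by
  have ht : ∀ x ∈ S, Tendsto (fun t : ℝ => (c x * t) ^ 2) (𝓝[>] 0) (𝓝[>] 0) := by
    intro x hx
    refine tendsto_nhdsWithin_iff.mpr ⟨?_, ?_⟩
    · have : Continuous fun t : ℝ => (c x * t) ^ 2 := by fun_prop
      simpa using (this.tendsto 0).mono_left nhdsWithin_le_nhds
    · filter_upwards [self_mem_nhdsWithin] with t ht
      exact pow_pos (mul_pos (hc x hx) ht) 2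
  have h1 : ∀ᶠ t in 𝓝[>] (0 : ℝ), ∀ x ∈ S, c x * √((c x * t) ^ 2) ≤
      ω.real (ball x ((c x * t) ^ 2)) :=
    (eventually_all_finset S).mpr fun x hx => (ht x hx).eventually (hω x hx)
  have h2 : ∀ᶠ t in 𝓝[>] (0 : ℝ), ∀ x ∈ S, ∀ y ∈ S, x ≠ y →
      (c x * t) ^ 2 + (c y * t) ^ 2 < dist x y := by
    refine (eventually_all_finset S).mpr fun x hx => (eventually_all_finset S).mpr fun y hy => ?_
    by_cases hxy : x = y
    · exact Eventually.of_forall fun t h => absurd hxy h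
    have h3 := ((ht x hx).mono_right nhdsWithin_le_nhds).add
      ((ht y hy).mono_right nhdsWithin_le_nhds)
    rw [add_zero] at h3
    filter_upwards [h3.eventually (Iio_mem_nhds (dist_pos.mpr hxy))] with t ht _ using ht
  obtain ⟨t, h3, h4, ht0⟩ := (h1.and (h2.and self_mem_nhdsWithin)).exists
  have ht0' : 0 < t := ht0
  have h5 := h.pack_fin (r := fun x => (c x * t) ^ 2) (l := t⁻¹) hA
    (fun x hx => pow_pos (mul_pos (hc x hx) ht0') 2)
    (fun x hx y hy hxy => ball_disjoint_ball (h4 x hx y hy hxy).le) (by positivity) fun x hx => by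
      refine le_trans (le_of_eq ?_) (h3 x hx)
      rw [Real.sqrt_sq (mul_pos (hc x hx) ht0').le]
      field_simp
  have e : ∑ x ∈ S, ((c x * t) ^ 2) ^ 2 = (∑ x ∈ S, c x ^ 4) * t ^ 4 := by
    rw [Finset.sum_mul]
    exact Finset.sum_congr rfl fun x _ => by ring
  rw [e, inv_pow, div_inv_eq_mul] at h5
  exact le_of_mul_le_mul_right h5 (by positivity)

lemma WT.haus (h : WT ω A) (hA : 0 ≤ A) (hα : α < 1) {s : ℝ} (hs0 : 0 < s) (hs1 : 4 * α - 2 < s)
    (hs2 : s < 2) : μH[s] {x | ∃ᶠ r in 𝓝[>] (0 : ℝ), r ^ α ≤ ω.real (ball x r)} ≠ ⊤ := by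
  set E : Set ℂ := {x | ∃ᶠ r in 𝓝[>] (0 : ℝ), r ^ α ≤ ω.real (ball x r)} with hE
  have h1α : 0 < 1 - α := by linarith
  set p : ℝ := (2 - s) / (1 - α) with hp
  have hp0 : 0 < p := div_pos (by linarith) h1α
  have hp4 : p < 4 := by
    rw [hp, div_lt_iff₀ h1α]
    linarith
  have h1 : ∀ n : ℕ, ∀ x ∈ E, ∃ r : ℝ, (0 < r ∧ r ≤ 1 / ((n : ℝ) + 1)) ∧
      r ^ α ≤ ω.real (ball x r) := fun n x hx =>
    ((Filter.Frequently.and_eventually hx (Ioc_mem_nhdsGT
      (Nat.one_div_pos_of_nat (n := n)))).exists).imp fun r hr => ⟨hr.2, hr.1⟩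
  choose! ρ hρ hρ' using h1
  choose u hu1 hu2 hu3 hu4 using fun n : ℕ => vitali (hρ n)
  have := fun n => (hu2 n).to_subtype
  have h2 := Measure.hausdorffMeasure_le_liminf_tsum (ι := fun n => u n) s E (l := atTop)
    (fun n : ℕ => ENNReal.ofReal (10 * (1 / ((n : ℝ) + 1)))) (by
      have := ENNReal.tendsto_ofReal (tendsto_one_div_add_atTop_nhds_zero_nat.const_mul (10 : ℝ))
      simpa using this)
    (fun n i => closedBall (i : ℂ) (5 * ρ n i)) (Eventually.of_forall fun n i =>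
      (ediam_closedBall_le _ _).trans (ENNReal.ofReal_le_ofReal (by
        linarith [(hρ n i (hu1 n i.2)).2])))
    (Eventually.of_forall fun n => by simpa using hu4 n)
  refine ne_top_of_le_ne_top ?_ (h2.trans (liminf_le_of_frequently_le' (Frequently.of_forall
    (p := fun n => _ ≤ ENNReal.ofReal (10 ^ s) * ENNReal.ofReal (4 / (4 - p) * (27 * A)))
    fun n => ?_)))
  · exact ENNReal.mul_ne_top ENNReal.ofReal_ne_top ENNReal.ofReal_ne_top
  have h3 : ∀ i : u n, 0 < ρ n i := fun i => (hρ n i (hu1 n i.2)).1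
  obtain ⟨_, μ, h4, h5, h6⟩ := h.layer (ι := u n) (x := fun i => i) (r := fun i => ρ n i)
    (v := fun i => ρ n i ^ (α - 1)) h3 (fun i j hij => (hu3 n i.2 j.2
      (Subtype.coe_ne_coe.mpr hij)).mono ball_subset_closedBall ball_subset_closedBall) fun i => by
      rw [← Real.rpow_add_one (h3 i).ne', sub_add_cancel]
      exact hρ' n i (hu1 n i.2)
  have h7 := layer_lt μ h4 (fun i => Real.one_le_rpow_of_pos_of_le_one_of_nonpos (h3 i)
    ((hρ n i (hu1 n i.2)).2.trans (by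
      rw [div_le_one (by positivity)]
      linarith [Nat.cast_nonneg (α := ℝ) n])) (by linarith)) hp0 hp4 (by positivity) h5
  rw [h6] at h7
  refine le_trans ?_ (mul_le_mul_right h7 _)
  rw [← ENNReal.tsum_mul_left]
  refine ENNReal.tsum_le_tsum fun i => ?_
  have h8 := h3 i
  refine (ENNReal.rpow_le_rpow (ediam_closedBall_le _ _) hs0.le).trans (le_of_eq ?_)
  rw [ENNReal.ofReal_rpow_of_pos (by positivity), ← ENNReal.ofReal_mul (sq_nonneg _),
    ← ENNReal.ofReal_mul (by positivity), ← Real.rpow_mul h8.le, ← Real.rpow_natCast,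
    ← Real.rpow_add h8, show 2 * (5 * ρ n i) = 10 * ρ n i by ring,
    Real.mul_rpow (by norm_num) h8.le]
  congr 3
  rw [hp]
  field_simp
  push_cast
  ring

/-- **Dimension of the set of points with a large harmonic measure.** -/
lemma WT.dim (h : WT ω A) (hA : 0 ≤ A) (hα : 1 / 2 ≤ α) :
    dimH {x | ∃ᶠ r in 𝓝[>] (0 : ℝ), r ^ α ≤ ω.real (ball x r)} ≤ ENNReal.ofReal (4 * α - 2) := by
  by_cases h1 : 1 ≤ α
  · refine (dimH_mono (subset_univ _)).trans ?_
    rw [Real.dimH_univ_eq_finrank, Complex.finrank_real_complex, ← ENNReal.ofReal_natCast]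
    exact ENNReal.ofReal_le_ofReal (by push_cast; linarith)
  by_contra hc
  have h2 : ENNReal.ofReal (4 * α - 2) < 2 := by
    rw [← ENNReal.ofReal_ofNat, ENNReal.ofReal_lt_ofReal_iff two_pos]
    linarith
  obtain ⟨s, h3, h4⟩ := ENNReal.lt_iff_exists_nnreal_btwn.mp (lt_min (not_le.mp hc) h2)
  have h5 : 4 * α - 2 < s := by
    rwa [← ENNReal.ofReal_coe_nnreal, ENNReal.ofReal_lt_ofReal_iff_of_nonneg (by linarith)] at h3
  have h6 : (s : ℝ) < 2 := by exact_mod_cast h4.trans_le (min_le_right _ _)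
  exact h.haus hA (not_le.mp h1) (by linarith) h5 h6
    (hausdorffMeasure_of_lt_dimH (h4.trans_le (min_le_left _ _)))

end

end Vale.Agent.N142H
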