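import Mathlib

/-!
P142, harmonic measure form: the definition used in the statement.
-/

open MeasureTheory

namespace Vale.Agent.N142H

/-- `ω` is the harmonic measure of `W` seen from `a`: a Borel probability measure carried by the
boundary of `W` that reproduces the value at `a` of every bounded function which is harmonic in `W`
and continuous on the closure of `W`. -/
def IsHarmonicMeasure (W : Set ℂ) (a : ℂ) (ω : Measure ℂ) : Prop :=
  IsProbabilityMeasure ω ∧ ω (frontier W)ᶜ = 0 ∧
    ∀ h : ℂ → ℝ, InnerProductSpace.HarmonicOnNhd h W → ContinuousOn h (closure W) →
      Bornology.IsBounded (h '' W) → ∫ z, h z ∂ω = h a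

end Vale.Agent.N142H
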