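import Vale.Agent.N142H.Mob

/-!
P142, harmonic measure form: existence and uniqueness of the harmonic measure.
-/

open Complex MeasureTheory Metric Set Filter Topology InnerProductSpace
open scoped Real ComplexConjugate ENNReal

namespace Vale.Agent.N142H

open Vale.Agent.P142 Vale.Agent.P142.H838 Vale.Agent.N142

noncomputable section

variable {W : Set ℂ} {φ f : ℂ → ℂ} {z ζ : ℂ} {g : ℂ → ℝ} {M R q : ℝ}

/-- A conformal map of `W` onto the disc with its inverse. -/
structure Pair (W : Set ℂ) (φ f : ℂ → ℂ) : Prop where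
  op : IsOpen W
  dφ : DifferentiableOn ℂ φ W
  uf : Univ f
  mφ : MapsTo φ W (ball 0 1)
  im : f '' ball 0 1 = W
  l : ∀ z ∈ ball (0 : ℂ) 1, φ (f z) = z
  r : ∀ w ∈ W, f (φ w) = w
  der : ∀ z ∈ ball (0 : ℂ) 1, deriv φ (f z) = (deriv f z)⁻¹

lemma exists_pair (hW : IsOpen W) (hφ : DifferentiableOn ℂ φ W) (hbij : BijOn φ W (ball 0 1)) :
    ∃ f, Pair W φ f := by
  set f : ℂ → ℂ := Function.invFunOn φ W with hf
  have hinv : InvOn f φ W (ball 0 1) := hbij.invOn_invFunOn
  have hbij' : BijOn f (ball 0 1) W := (bijOn_comm hinv).mpr hbij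
  have hder : ∀ z ∈ ball (0 : ℂ) 1, HasDerivAt f (deriv φ (f z))⁻¹ z := by
    intro z hz
    have ha : f z ∈ W := hbij'.mapsTo hz
    have hd : HasStrictDerivAt φ (deriv φ (f z)) (f z) :=
      (hφ.analyticAt (hW.mem_nhds ha)).hasStrictDerivAt
    have hne : deriv φ (f z) ≠ 0 := injOn_deriv_ne_zero hW hφ hbij.injOn ha
    have hev : ∀ᶠ x in 𝓝 (f z), f (φ x) = x := by
      filter_upwards [hW.mem_nhds ha] with x hx
      exact hinv.1 hx
    have h1 := hd.to_local_left_inverse hne hev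
    rw [hinv.2 hz] at h1
    exact h1.hasDerivAt
  exact ⟨f, hW, hφ, ⟨fun z hz => (hder z hz).differentiableAt.differentiableWithinAt,
    hbij'.injOn⟩, hbij.mapsTo, hbij'.image_eq, fun z hz => hinv.2 hz, fun w hw => hinv.1 hw,
    fun z hz => by rw [(hder z hz).deriv, inv_inv]⟩

lemma Pair.mf (P : Pair W φ f) (hz : z ∈ ball (0 : ℂ) 1) : f z ∈ W :=
  P.im ▸ mem_image_of_mem f hz

lemma Pair.omit (P : Pair W φ f) (hζ : ζ ∉ W) : ∀ z ∈ ball (0 : ℂ) 1, f z ≠ ζ :=
  fun _ hz h => hζ (h ▸ P.mf hz)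

lemma rr_mem (n : ℕ) (θ : ℝ) : circleMap 0 (rr n) θ ∈ ball (0 : ℂ) 1 :=
  circleMap_mem_unit (rr_pos n).le (rr_lt n) θ

lemma bv_aem (hf : Univ f) : AEMeasurable (fun θ => bv f (circleMap 0 1 θ)) nu :=
  aemeasurable_of_tendsto_metrizable_ae' (fun n =>
    (cont_circ hf.1 (rr_pos n).le (rr_lt n)).measurable.aemeasurable) (ae_nu (ae_bv hf))

lemma Pair.bv_mem (P : Pair W φ f) : ∀ᵐ θ ∂nu, bv f (circleMap 0 1 θ) ∈ frontier W := by
  filter_upwards [ae_nu (ae_bv P.uf)] with θ hθ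
  rw [P.op.frontier_eq]
  refine ⟨mem_closure_of_tendsto hθ (Eventually.of_forall fun n => P.mf (rr_mem n θ)), fun h => ?_⟩
  have h1 := ((P.dφ.continuousOn.continuousAt (P.op.mem_nhds h)).tendsto.comp hθ).norm
  have h2 : Tendsto (fun n => ‖(φ ∘ fun n => f (circleMap 0 (rr n) θ)) n‖) atTop (𝓝 1) := by
    refine rr_tendsto.congr fun n => ?_
    rw [Function.comp_apply, P.l _ (rr_mem n θ), norm_circleMap_zero, abs_of_pos (rr_pos n)]
  have h3 := mem_ball_zero_iff.mp (P.mφ h)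
  rw [tendsto_nhds_unique h1 h2] at h3
  exact lt_irrefl _ h3

/-- The distribution of the boundary values. -/
def hm (f : ℂ → ℂ) : Measure ℂ := Measure.map (fun θ => bv f (circleMap 0 1 θ)) nu

lemma hm_prob (hf : Univ f) : IsProbabilityMeasure (hm f) :=
  Measure.isProbabilityMeasure_map (bv_aem hf)

lemma Pair.hm_ae (P : Pair W φ f) : ∀ᵐ w ∂(hm f), w ∈ frontier W :=
  (ae_map_iff (bv_aem P.uf) isClosed_frontier.measurableSet).mpr P.bv_mem

lemma Pair.int_hm (P : Pair W φ f) (hg : ContinuousOn g (closure W)) :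
    ∫ w, g w ∂(hm f) = ∫ θ, g (bv f (circleMap 0 1 θ)) ∂nu := by
  have := hm_prob P.uf
  refine integral_map (bv_aem P.uf) ?_
  have h1 : (hm f).restrict (closure W) = hm f :=
    Measure.restrict_eq_self_of_ae_mem (P.hm_ae.mono fun w hw => frontier_subset_closure hw)
  have h2 := hg.aestronglyMeasurable (μ := hm f) isClosed_closure.measurableSet
  rwa [h1] at h2

lemma Pair.lim_int (P : Pair W φ f) (hz : z ∈ ball (0 : ℂ) 1) (hg : ContinuousOn g (closure W))
    (hM : ∀ w ∈ W, |g w| ≤ M) :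
    Tendsto (fun n => ∫ θ, pk z θ * g (f (circleMap 0 (rr n) θ)) ∂nu) atTop
      (𝓝 (∫ θ, pk z θ * g (bv f (circleMap 0 1 θ)) ∂nu)) := by
  refine tendsto_integral_of_dominated_convergence (fun _ => 2 / (1 - ‖z‖) * M) (fun n => ?_)
    (integrable_const _) (fun n => Eventually.of_forall fun θ => ?_) ?_
  · exact ((pk_cont hz).mul (hg.comp_continuous (cont_circ P.uf.1 (rr_pos n).le (rr_lt n))
      fun θ => subset_closure (P.mf (rr_mem n θ)))).aestronglyMeasurable
  · rw [norm_mul, Real.norm_eq_abs, Real.norm_eq_abs, abs_of_nonneg (pk_nonneg hz θ)]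
    exact mul_le_mul (pk_le hz θ) (hM _ (P.mf (rr_mem n θ))) (abs_nonneg _)
      (div_nonneg two_pos.le (one_sub_pos hz).le)
  · filter_upwards [ae_nu (ae_bv P.uf), P.bv_mem] with θ h1 h2
    refine Tendsto.const_mul _ ((hg _ (frontier_subset_closure h2)).tendsto.comp ?_)
    exact tendsto_nhdsWithin_iff.mpr ⟨h1, Eventually.of_forall fun n =>
      subset_closure (P.mf (rr_mem n θ))⟩

lemma harm_comp {h : ℂ → ℝ} {F : ℂ → ℂ} (hF : AnalyticAt ℂ F z) (hh : HarmonicAt h (F z)) :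
    HarmonicAt (fun y => h (F y)) z := by
  obtain ⟨ε, h1, h2⟩ := Metric.isOpen_iff.1 (isOpen_setOfPred_harmonicAt (f := h)) _ hh
  obtain ⟨G, hG, hG'⟩ := HarmonicOnNhd.exists_analyticOnNhd_ball_re_eq (fun _ hy => h2 hy)
  have h3 : AnalyticAt ℂ (fun y => G (F y)) z := (hG _ (mem_ball_self h1)).comp hF
  refine (harmonicAt_congr_nhds ?_).mp h3.harmonicAt_re
  filter_upwards [hF.continuousAt.eventually (ball_mem_nhds _ h1)] with y hy
  exact hG' hy

/-- **Existence** of the harmonic measure. -/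
theorem Pair.isHarm (P : Pair W φ f) : IsHarmonicMeasure W (f 0) (hm f) := by
  refine ⟨hm_prob P.uf, P.hm_ae, fun h hh hc hb => ?_⟩
  obtain ⟨M, hM⟩ := isBounded_iff_forall_norm_le.mp hb
  have h00 : (0 : ℂ) ∈ ball (0 : ℂ) 1 := mem_ball_self one_pos
  have h1 := P.lim_int h00 hc (M := M) fun w hw => hM _ (mem_image_of_mem h hw)
  simp only [pk_zero, one_mul] at h1
  rw [P.int_hm hc]
  refine tendsto_nhds_unique h1 (tendsto_const_nhds.congr fun n => ?_)
  rw [avg_nu (fun y => h (f y))]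
  refine (InnerProductSpace.HarmonicOnNhd.circleAverage_eq (f := fun y => h (f y))
    fun y hy => ?_).symm
  have hy' : y ∈ ball (0 : ℂ) 1 := by
    rw [abs_of_pos (rr_pos n)] at hy
    exact closedBall_subset_ball (rr_lt n) hy
  exact harm_comp (P.uf.1.analyticAt (isOpen_ball.mem_nhds hy')) (hh _ (P.mf hy'))

/-- Boundary concentration of the harmonic measure seen from an arbitrary point. -/
lemma Pair.conc_pk (P : Pair W φ f) (hζ : ζ ∉ W) (hR : 0 < R) (hq : 0 < q) (hq1 : q ≤ 1 / 2)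
    (hz : z ∈ ball (0 : ℂ) 1) (h : ‖f z - ζ‖ < q ^ 4 * R) :
    ∫ θ, pk z θ * (1 - bmp ζ R (bv f (circleMap 0 1 θ))) ∂nu ≤ 8 * KB * q := by
  have hK := KB_pos
  have hT : Continuous fun w => 1 - bmp ζ R w := continuous_const.sub (bmp_cont ζ R)
  have h1 := P.lim_int hz hT.continuousOn (M := 1) fun w _ =>
    abs_le.mpr ⟨by linarith [bmp_le ζ R w], by linarith [bmp_nonneg ζ R w]⟩
  have hmem : ∀ n, ∀ u : ℂ, ‖u‖ ≤ 1 → (rr n : ℂ) * u ∈ ball (0 : ℂ) 1 := by
    intro n u hu
    rw [mem_ball_zero_iff, norm_mul, Complex.norm_real, Real.norm_eq_abs, abs_of_pos (rr_pos n)]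
    nlinarith [rr_pos n, rr_lt n]
  have h2 : Tendsto (fun n => ‖f ((rr n : ℂ) * z) - ζ‖) atTop (𝓝 ‖f z - ζ‖) := by
    have h3 : Tendsto (fun n => (rr n : ℂ) * z) atTop (𝓝 z) := by
      have := ((Complex.continuous_ofReal.tendsto 1).comp rr_tendsto).mul_const z
      simpa using this
    exact (((P.uf.1.continuousOn.continuousAt (isOpen_ball.mem_nhds hz)).tendsto.comp
      h3).sub_const ζ).norm
  refine le_of_tendsto h1 ?_
  filter_upwards [h2.eventually (Iio_mem_nhds h)] with n hn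
  have hc : ContinuousOn (fun u => f ((rr n : ℂ) * u)) (closedBall 0 1) :=
    P.uf.1.continuousOn.comp (by fun_prop) fun u hu => hmem n u (mem_closedBall_zero_iff.mp hu)
  have h3 := mob_avg hz (G := fun u => 1 - bmp ζ R (f ((rr n : ℂ) * u)))
    (hT.comp_continuousOn hc)
  simp only [circ_eq (rr n)]
  rw [h3]
  set F : ℂ → ℂ := fun u => f ((rr n : ℂ) * mb z u) with hF
  have hm1 : ∀ u ∈ ball (0 : ℂ) 1, (rr n : ℂ) * mb z u ∈ ball (0 : ℂ) 1 := fun u hu =>
    hmem n _ (norm_mb_le hz (mem_ball_zero_iff.mp hu).le)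
  have hFU : Univ F := by
    refine ⟨P.uf.1.comp ((mb_univ hz).1.const_mul _) hm1, fun a ha b hb hab => ?_⟩
    have hr : (rr n : ℂ) ≠ 0 := by exact_mod_cast (rr_pos n).ne'
    exact (mb_univ hz).2 ha hb (mul_left_cancel₀ hr (P.uf.2 (hm1 a ha) (hm1 b hb) hab))
  have hFc : ContinuousOn F (closedBall 0 1) := hc.comp (mb_contOn hz) fun u hu =>
    mem_closedBall_zero_iff.mpr (norm_mb_le hz (mem_closedBall_zero_iff.mp hu))
  have h4 := conc_liminf hFU (fun u hu => P.omit hζ _ (hm1 u hu)) hR hq hq1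
    (by simpa [hF, mb] using hn.le)
  have h5 : ∀ θ, liminf (fun k => ENNReal.ofReal (1 - bmp ζ R (F (circleMap 0 (rr k) θ)))) atTop =
      ENNReal.ofReal (1 - bmp ζ R (F (circleMap 0 1 θ))) := by
    intro θ
    refine (ENNReal.tendsto_ofReal ((hT.tendsto _).comp ((hFc _
      (mem_closedBall_zero_iff.mpr (norm_cm θ).le)).tendsto.comp ?_))).liminf_eq
    refine tendsto_nhdsWithin_iff.mpr ⟨?_, Eventually.of_forall fun k =>
      ball_subset_closedBall (rr_mem k θ)⟩
    have := ((Complex.continuous_ofReal.tendsto 1).comp rr_tendsto).mul_const (circleMap 0 1 θ)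
    simpa [circ_eq (rr _) θ] using this
  simp only [h5] at h4
  have h6 : Continuous fun θ => 1 - bmp ζ R (F (circleMap 0 1 θ)) :=
    hT.comp (hFc.comp_continuous (continuous_circleMap 0 1) fun θ =>
      mem_closedBall_zero_iff.mpr (norm_cm θ).le)
  change ∫ θ, 1 - bmp ζ R (F (circleMap 0 1 θ)) ∂nu ≤ _
  rw [integral_eq_lintegral_of_nonneg_ae (Eventually.of_forall fun θ =>
    sub_nonneg.mpr (bmp_le ζ R _)) h6.aestronglyMeasurable, lint_nu]
  refine ENNReal.toReal_le_of_le_ofReal (by positivity) ((mul_le_mul_right h4 _).trans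
    (le_of_eq ?_))
  rw [← ENNReal.ofReal_inv_of_pos (by positivity), ← ENNReal.ofReal_mul (by positivity)]
  congr 1
  field_simp
  ring

lemma int_pk (hf : Univ f) (hz : z ∈ ball (0 : ℂ) 1) (hg : Continuous g) (hM : ∀ w, |g w| ≤ M) :
    Integrable (fun θ => pk z θ * g (bv f (circleMap 0 1 θ))) nu := by
  refine Integrable.of_bound ((pk_cont hz).aestronglyMeasurable.mul
    (hg.measurable.comp_aemeasurable (bv_aem hf)).aestronglyMeasurable) (2 / (1 - ‖z‖) * M)
    (Eventually.of_forall fun θ => ?_)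
  rw [norm_mul, Real.norm_eq_abs, Real.norm_eq_abs, abs_of_nonneg (pk_nonneg hz θ)]
  exact mul_le_mul (pk_le hz θ) (hM _) (abs_nonneg _) (div_nonneg two_pos.le (one_sub_pos hz).le)

lemma int_pk' (hz : z ∈ ball (0 : ℂ) 1) : Integrable (pk z) nu :=
  Integrable.of_bound (pk_cont hz).aestronglyMeasurable (2 / (1 - ‖z‖))
    (Eventually.of_forall fun θ => by
      rw [Real.norm_eq_abs, abs_of_nonneg (pk_nonneg hz θ)]
      exact pk_le hz θ)

/-- The Poisson integral of the boundary values. -/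
def poi (f : ℂ → ℂ) (g : ℂ → ℝ) (z : ℂ) : ℝ := ∫ θ, pk z θ * g (bv f (circleMap 0 1 θ)) ∂nu

lemma poi_harm (hf : Univ f) (hg : Continuous g) (hM : ∀ w, |g w| ≤ M)
    (hz : z ∈ ball (0 : ℂ) 1) : HarmonicAt (poi f g) z := by
  have h0 := int_pk hf (mem_ball_self one_pos) hg hM
  simp only [pk_zero, one_mul] at h0
  have h1 : CircleIntegrable (fun u => g (bv f u)) 0 1 := circ_int h0
  have h2 : CircleIntegrable (fun u => ((g (bv f u) : ℝ) : ℂ)) 0 1 := by
    simp only [CircleIntegrable, intervalIntegrable_iff] at h1 ⊢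
    exact Complex.ofRealCLM.integrable_comp h1
  have h3 := analyticOnNhd_circleAverage_herglotzRieszKernel_smul h2 z hz
  refine (harmonicAt_congr_nhds ?_).mp h3.harmonicAt_re
  filter_upwards [isOpen_ball.mem_nhds hz] with y hy
  rw [re_circleAverage_herglotzRieszKernel_smul h1 hy, ← avg_nu, poi]
  congr 1
  funext θ
  rw [← pk_eq]
  rfl

lemma poi_sub (hf : Univ f) (hg : Continuous g) (hM : ∀ w, |g w| ≤ M) (hz : z ∈ ball (0 : ℂ) 1)
    {c ε N : ℝ} {T : ℂ → ℝ} (hT : Continuous T) (hT1 : ∀ w, |T w| ≤ 1)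
    (h : ∀ w, |g w - c| ≤ ε + N * T w) :
    |poi f g z - c| ≤ ε + N * ∫ θ, pk z θ * T (bv f (circleMap 0 1 θ)) ∂nu := by
  have h1 := int_pk hf hz hg hM
  have h2 := int_pk' hz
  have h3 := int_pk hf hz hT hT1
  have e1 : poi f g z - c = ∫ θ, (pk z θ * g (bv f (circleMap 0 1 θ)) - c * pk z θ) ∂nu := by
    rw [integral_sub h1 (h2.const_mul c), integral_const_mul, pk_int hz, mul_one, poi]
  have e2 : ε + N * ∫ θ, pk z θ * T (bv f (circleMap 0 1 θ)) ∂nu =
      ∫ θ, (ε * pk z θ + N * (pk z θ * T (bv f (circleMap 0 1 θ)))) ∂nu := by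
    rw [integral_add (h2.const_mul ε) (h3.const_mul N), integral_const_mul, integral_const_mul,
      pk_int hz, mul_one]
  rw [e1, e2, ← Real.norm_eq_abs]
  refine norm_integral_le_of_norm_le ((h2.const_mul ε).add (h3.const_mul N))
    (Eventually.of_forall fun θ => ?_)
  rw [Real.norm_eq_abs, mul_comm c, ← mul_sub, abs_mul, abs_of_nonneg (pk_nonneg hz θ)]
  have := mul_le_mul_of_nonneg_left (h (bv f (circleMap 0 1 θ))) (pk_nonneg hz θ)
  linarith

/-- **The Dirichlet problem** for bounded continuous data. -/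
theorem Pair.dirichlet (P : Pair W φ f) (hg : Continuous g) (hM : ∀ w, |g w| ≤ M) :
    ∃ h : ℂ → ℝ, HarmonicOnNhd h W ∧ ContinuousOn h (closure W) ∧ Bornology.IsBounded (h '' W) ∧
      ∀ w ∉ W, h w = g w := by
  classical
  have hK := KB_pos
  have hM0 : 0 ≤ M := (abs_nonneg _).trans (hM 0)
  have hh : HarmonicOnNhd (W.piecewise (fun w => poi f g (φ w)) g) W := by
    intro w hw
    refine (harmonicAt_congr_nhds ?_).mp (harm_comp (P.dφ.analyticAt (P.op.mem_nhds hw))
      (poi_harm P.uf hg hM (P.mφ hw)))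
    filter_upwards [P.op.mem_nhds hw] with y hy
    rw [piecewise_eq_of_mem _ _ _ hy]
  refine ⟨_, hh, fun ζ _ => ?_, isBounded_iff_forall_norm_le.mpr ⟨M, ?_⟩,
    fun w hw => piecewise_eq_of_notMem _ _ _ hw⟩
  · by_cases hζ : ζ ∈ W
    · exact (hh ζ hζ).1.continuousAt.continuousWithinAt
    refine ContinuousAt.continuousWithinAt ?_
    rw [ContinuousAt, piecewise_eq_of_notMem _ _ _ hζ, Metric.tendsto_nhds]
    intro ε hε
    obtain ⟨ρ, hρ, h1⟩ := Metric.continuous_iff.mp hg ζ (ε / 4) (by positivity)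
    set q : ℝ := min (1 / 2) (ε / (4 * (2 * M + 1) * (8 * KB))) with hq
    have hq0 : 0 < q := lt_min (by norm_num) (by positivity)
    have hq2 : q * (4 * (2 * M + 1) * (8 * KB)) ≤ ε := by
      rw [← le_div_iff₀ (by positivity)]
      exact min_le_right _ _
    filter_upwards [ball_mem_nhds ζ hρ, ball_mem_nhds ζ (show 0 < q ^ 4 * (ρ / 2) by positivity)]
      with w hw1 hw2
    by_cases hw : w ∈ W
    · rw [piecewise_eq_of_mem _ _ _ hw, Real.dist_eq]
      have h2 := P.conc_pk hζ (R := ρ / 2) (by positivity) hq0 (min_le_left _ _) (P.mφ hw)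
        (by rw [P.r w hw]; exact mem_ball_iff_norm.mp hw2)
      have h3 := poi_sub P.uf hg hM (P.mφ hw) (c := g ζ) (ε := ε / 4) (N := 2 * M + 1)
        (T := fun w => 1 - bmp ζ (ρ / 2) w) (continuous_const.sub (bmp_cont _ _))
        (fun w => abs_le.mpr ⟨by linarith [bmp_le ζ (ρ / 2) w],
          by linarith [bmp_nonneg ζ (ρ / 2) w]⟩) (fun y => by
          by_cases hy : dist y ζ < ρ
          · have h4 := h1 y hy
            rw [Real.dist_eq] at h4
            have := bmp_le ζ (ρ / 2) y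
            nlinarith
          · rw [bmp_zero (by positivity) (by rw [← dist_eq_norm]; linarith)]
            have h4 := abs_sub (g y) (g ζ)
            linarith [hM y, hM ζ])
      have h4 : (2 * M + 1) * ∫ θ, pk (φ w) θ * (1 - bmp ζ (ρ / 2) (bv f (circleMap 0 1 θ))) ∂nu ≤
          (2 * M + 1) * (8 * KB * q) := mul_le_mul_of_nonneg_left h2 (by positivity)
      nlinarith
    · rw [piecewise_eq_of_notMem _ _ _ hw]
      exact (h1 w hw1).trans (by linarith)
  · rintro _ ⟨w, hw, rfl⟩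
    rw [piecewise_eq_of_mem _ _ _ hw]
    have h3 := poi_sub P.uf hg hM (P.mφ hw) (c := 0) (ε := M) (N := 0) (T := fun _ => 0)
      continuous_const (fun _ => by simp) (fun y => by simpa using hM y)
    simpa using h3

/-- **Uniqueness** of the harmonic measure. -/
theorem Pair.unique (P : Pair W φ f) {a : ℂ} {ω ω' : Measure ℂ} (h : IsHarmonicMeasure W a ω)
    (h' : IsHarmonicMeasure W a ω') : ω = ω' := by
  have := h.1
  have := h'.1
  refine ext_of_forall_integral_eq_of_IsFiniteMeasure fun g => ?_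
  obtain ⟨u, h1, h2, h3, h4⟩ := P.dirichlet g.continuous (M := ‖g‖) fun w => g.norm_coe_le_norm w
  have key : ∀ m : Measure ℂ, IsHarmonicMeasure W a m → ∫ x, g x ∂m = u a := by
    intro m hm
    rw [← hm.2.2 u h1 h2 h3]
    refine integral_congr_ae ?_
    have h5 : ∀ᵐ w ∂m, w ∈ frontier W := hm.2.1
    filter_upwards [h5] with w hw
    rw [P.op.frontier_eq] at hw
    exact (h4 w hw.2).symm
  rw [key ω h, key ω' h']

end

end Vale.Agent.N142H
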