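import Mathlib

set_option linter.all false

/-!
# The Riemann mapping theorem

`riemann_mapping`: every simply connected open `U ⊂ ℂ`, `U ≠ ℂ`, is the image of the unit disc
under an injective holomorphic function with nonvanishing derivative.
-/

open Function Filter Metric Set Topology Complex
open scoped Pointwise ComplexConjugate

namespace Vale.Agent.N142H.RMT

/-! ### Steps 1 and 2 (following the file in Mathlib by Y. Kudryashov; copy of the proof in P071) -/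

theorem step1 {U : Set ℂ} (hUo : IsOpen U)
    (hUc : IsSimplyConnected U) (hU : U ≠ univ) :
    ∃ f : ℂ → ℂ, Injective f ∧ ¬Dense (f '' U) ∧ ∀ z ∈ U, deriv f z ≠ 0 := by
  wlog hU₀ : 0 ∉ U
  · rw [ne_univ_iff_exists_notMem] at hU
    rcases hU with ⟨a, ha⟩
    specialize this (hUo.vadd (-a)) (by simpa only [isSimplyConnected_vadd_set_iff, ne_eq]) (by simp [hU])
      (by simpa only [mem_vadd_set_iff_neg_vadd_mem, neg_neg, vadd_eq_add, add_zero, ne_eq])
    rcases this with ⟨f, hf_inj, hf_dense, hdf⟩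
    refine ⟨f ∘ (-a + ·), hf_inj.comp (add_right_injective (-a)), ?_, fun z hz ↦ ?_⟩
    · simpa only [← image_vadd, Set.image_image] using! hf_dense
    · simpa only [comp_def, deriv_comp_const_add, ne_eq] using hdf (-a + z) (mapsTo_image _ _ hz)
  rcases exists_continuousOn_pow_eq hUc hUo continuousOn_id (by rwa [image_id]) two_ne_zero
    with ⟨f, hfc, hf_inv⟩
  replace hf_inv : LeftInverse (· ^ 2) f := hf_inv
  have hf₀ : ∀ z ∈ U, f z ≠ 0 := by
    intro z hz hfz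
    simpa only [hfz, ne_eq, OfNat.ofNat_ne_zero, not_false_eq_true, zero_pow,     (ne_of_mem_of_not_mem hz hU₀).symm] using hf_inv z
  have hdf : ∀ z ∈ U, HasStrictDerivAt f (2 * f z)⁻¹ z := by
    intro z hz
    apply HasStrictDerivAt.of_local_left_inverse
    · exact hfc.continuousAt <| hUo.mem_nhds hz
    · simpa only [Nat.cast_ofNat, Nat.add_one_sub_one, pow_one] using hasStrictDerivAt_pow 2 (f z)
    · simpa only [ne_eq, mul_eq_zero, OfNat.ofNat_ne_zero, false_or] using hf₀ z hz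
    · exact .of_forall hf_inv
  refine ⟨f, hf_inv.injective, ?_, fun z hz ↦ ?_⟩
  · simp only [Dense, not_forall, mem_closure_iff_frequently, not_frequently]
    rcases hUc.nonempty with ⟨x, hx⟩
    use -f x
    have : f '' U ∈ 𝓝 (f x) := by
      rw [← (hdf x hx).map_nhds_eq (by simpa only [mul_inv_rev, ne_eq, mul_eq_zero, inv_eq_zero, OfNat.ofNat_ne_zero, or_false] using hf₀ x hx)]
      exact Filter.image_mem_map <| hUo.mem_nhds hx
    rw [nhds_neg, eventually_neg]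
    filter_upwards [this]
    rintro _ ⟨a, ha, rfl⟩ ⟨b, hb, hab⟩
    obtain rfl : a = b := by
      rw [← hf_inv b, hab]
      simp only [even_two, Even.neg_pow, hf_inv a]
    refine hf₀ a ha ?_
    linear_combination hab / 2
  · simpa only [(hdf z hz).hasDerivAt.deriv, mul_inv_rev, ne_eq, mul_eq_zero, inv_eq_zero, OfNat.ofNat_ne_zero,     or_false] using hf₀ z hz

theorem step2 {U : Set ℂ} (hUo : IsOpen U)
    (hUc : IsSimplyConnected U) (hU : U ≠ univ) :
    ∃ f : ℂ → ℂ, MapsTo f U (ball 0 1) ∧ InjOn f U ∧ ∀ z ∈ U, deriv f z ≠ 0 := by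
  rcases step1 hUo hUc hU with ⟨f, hf_inj, hfd, hdf⟩
  obtain ⟨x, ε, hε₀, hε⟩ : ∃ (x : ℂ) (ε : ℝ), 0 < ε ∧ ∀ a ∈ U, ε < dist (f a) x := by
    simpa [Dense, mem_closure_iff_nhds_basis Metric.nhds_basis_closedBall] using hfd
  have hfx : ∀ z ∈ U, f z ≠ x := fun z hz ↦ by simpa using hε₀.trans (hε z hz)
  use fun z ↦ ε / (f z - x)
  refine ⟨?mapsTo, ?injOn, ?deriv⟩
  case mapsTo =>
    intro z hz
    rw [mem_ball_zero_iff, norm_div, norm_real, Real.norm_of_nonneg hε₀.le, div_lt_one₀]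
    · simpa [dist_eq_norm] using hε z hz
    · simpa only [norm_pos_iff, ne_eq, sub_eq_zero] using hfx z hz
  case injOn =>
    intro z hz w hw heq
    simpa only [div_eq_mul_inv, mul_eq_mul_left_iff, inv_inj, sub_left_inj, hf_inj.eq_iff, ofReal_eq_zero,     hε₀.ne', or_false] using heq
  case deriv =>
    intro z hz
    have hdz : DifferentiableAt ℂ f z := differentiableAt_of_deriv_ne_zero (hdf z hz)
    rw [(hasDerivAt_const _ _).fun_div (hdz.hasDerivAt.sub_const _) _ |>.deriv] <;>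
      simp [*, ne_of_gt, sub_eq_zero]

/-! ### Moebius maps of the disc -/

/-- the Moebius map `(z - w) / (1 - conj w * z)` -/
noncomputable def mob (w z : ℂ) : ℂ := (z - w) / (1 - conj w * z)

theorem mob_den {w z : ℂ} (hw : ‖w‖ < 1) (hz : ‖z‖ < 1) : 1 - conj w * z ≠ 0 := by
  intro h
  have h1 : conj w * z = 1 := by linear_combination -h
  have h2 : ‖conj w * z‖ = 1 := by rw [h1]; simp
  rw [norm_mul, RCLike.norm_conj] at h2
  have := mul_lt_one_of_nonneg_of_lt_one_left (norm_nonneg w) hw hz.le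
  linarith only [h2, this]

theorem mob_norm {w z : ℂ} (hw : ‖w‖ < 1) (hz : ‖z‖ < 1) : ‖mob w z‖ < 1 := by
  unfold mob
  have h0 := mob_den hw hz
  rw [norm_div, div_lt_one (norm_pos_iff.2 h0)]
  have h1 : ‖z - w‖ ^ 2 < ‖1 - conj w * z‖ ^ 2 := by
    have e1 : ‖1 - conj w * z‖ ^ 2 - ‖z - w‖ ^ 2 = (1 - ‖w‖ ^ 2) * (1 - ‖z‖ ^ 2) := by
      rw [← Complex.normSq_eq_norm_sq, ← Complex.normSq_eq_norm_sq, ← Complex.normSq_eq_norm_sq,
        ← Complex.normSq_eq_norm_sq]
      simp only [Complex.normSq_apply, Complex.sub_re, Complex.sub_im, Complex.mul_re,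
        Complex.mul_im, Complex.one_re, Complex.one_im, Complex.conj_re, Complex.conj_im]
      ring
    have h2 : 0 < (1 - ‖w‖ ^ 2) * (1 - ‖z‖ ^ 2) := by
      apply mul_pos
      · nlinarith only [hw, norm_nonneg w]
      · nlinarith only [hz, norm_nonneg z]
    linarith only [e1, h2]
  exact lt_of_pow_lt_pow_left₀ 2 (norm_nonneg _) h1

theorem mob_hasDerivAt {w z : ℂ} (hw : ‖w‖ < 1) (hz : ‖z‖ < 1) :
    HasDerivAt (mob w) ((1 - ‖w‖ ^ 2) / (1 - conj w * z) ^ 2) z := by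
  have h0 := mob_den hw hz
  have h1 : HasDerivAt (fun z : ℂ => z - w) 1 z := (hasDerivAt_id z).sub_const w
  have h2 : HasDerivAt (fun z : ℂ => 1 - conj w * z) (-(conj w)) z := by
    simpa only [id_eq, mul_one] using ((hasDerivAt_id z).const_mul (conj w)).const_sub 1
  have h3 := h1.fun_div h2 h0
  refine h3.congr_deriv ?_
  congr 1
  have : (‖w‖ ^ 2 : ℂ) = conj w * w := by
    rw [Complex.conj_mul']
  rw [this]
  ring

theorem mob_deriv_ne {w z : ℂ} (hw : ‖w‖ < 1) (hz : ‖z‖ < 1) :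
    (1 - (‖w‖ : ℂ) ^ 2) / (1 - conj w * z) ^ 2 ≠ 0 := by
  apply div_ne_zero
  · have : (1 - (‖w‖ : ℂ) ^ 2) = ((1 - ‖w‖ ^ 2 : ℝ) : ℂ) := by push_cast; rfl
    rw [this]
    have : 0 < 1 - ‖w‖ ^ 2 := by nlinarith only [hw, norm_nonneg w]
    exact_mod_cast this.ne'
  · exact pow_ne_zero 2 (mob_den hw hz)

theorem mob_inj {w z z' : ℂ} (hw : ‖w‖ < 1) (hz : ‖z‖ < 1) (hz' : ‖z'‖ < 1)
    (h : mob w z = mob w z') : z = z' := by
  unfold mob at h
  rw [div_eq_div_iff (mob_den hw hz) (mob_den hw hz')] at h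
  have h1 : (z - z') * (1 - conj w * w) = 0 := by linear_combination h
  have h2 : (1 - conj w * w) ≠ 0 := mob_den hw hw
  have h3 := (mul_eq_zero.1 h1).resolve_right h2
  exact sub_eq_zero.1 h3

theorem mob_self (w : ℂ) : mob w w = 0 := by simp only [mob, sub_self, zero_div]

theorem mob_zero (w : ℂ) : mob w 0 = -w := by simp only [mob, zero_sub, mul_zero, sub_zero, div_one]

theorem mob_eq_zero {w z : ℂ} (hw : ‖w‖ < 1) (hz : ‖z‖ < 1) (h : mob w z = 0) : z = w := by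
  apply mob_inj hw hz hw
  rw [h, mob_self]

/-! ### Compactness and Hurwitz -/

theorem lip_bound {U : Set ℂ} {f : ℂ → ℂ} (hd : DifferentiableOn ℂ f U)
    (hb : ∀ z ∈ U, ‖f z‖ ≤ 1) {z₀ : ℂ} {r : ℝ} (hr : 0 < r) (hball : ball z₀ (2 * r) ⊆ U)
    {y z : ℂ} (hy : y ∈ ball z₀ (r / 2)) (hz : z ∈ ball z₀ (r / 2)) :
    dist (f z) (f y) ≤ 2 / r * dist z y := by
  have hyU : ball y r ⊆ U := by
    refine (ball_subset_ball' ?_).trans hball
    rw [mem_ball] at hy
    linarith only [hr, hy]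
  refine Complex.dist_le_div_mul_dist_of_mapsTo_ball (hd.mono hyU) ?_ ?_
  · intro x hx
    rw [mem_closedBall, dist_eq_norm]
    have h1 := hb x (hyU hx)
    have h2 := hb y (hyU (mem_ball_self hr))
    have := norm_sub_le (f x) (f y)
    linarith only [h1, h2, this]
  · rw [mem_ball] at *
    have := dist_triangle_right z y z₀
    linarith

theorem exists_limit {U : Set ℂ} (hU : IsOpen U) (𝒰 : Ultrafilter ℕ) (f : ℕ → ℂ → ℂ)
    (hd : ∀ n, DifferentiableOn ℂ (f n) U) (hb : ∀ n, ∀ z ∈ U, ‖f n z‖ ≤ 1) :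
    ∃ g : ℂ → ℂ, TendstoLocallyUniformlyOn f g (𝒰 : Filter ℕ) U := by
  have hlim : ∀ z : ℂ, ∃ w : ℂ, z ∈ U → Tendsto (fun n => f n z) 𝒰 (𝓝 w) := by
    intro z
    by_cases hz : z ∈ U
    · obtain ⟨w, -, hw⟩ := (isCompact_closedBall (0 : ℂ) 1).ultrafilter_le_nhds
        (𝒰.map (fun n => f n z)) (by
          rw [le_principal_iff, Ultrafilter.coe_map, Filter.mem_map]
          exact Filter.Eventually.of_forall (p := fun n => f n z ∈ closedBall (0 : ℂ) 1)
            (fun n => by simpa only [mem_closedBall, dist_zero_right] using hb n z hz))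
      exact ⟨w, fun _ => hw⟩
    · exact ⟨0, fun h => absurd h hz⟩
  choose g hg using hlim
  refine ⟨g, ?_⟩
  rw [Metric.tendstoLocallyUniformlyOn_iff]
  intro ε hε z₀ hz₀
  obtain ⟨r0, hr0, hball0⟩ := Metric.isOpen_iff.1 hU z₀ hz₀
  set r := r0 / 2 with hrdef
  have hr : 0 < r := by (clear * - hr0; positivity)
  have hball : ball z₀ (2 * r) ⊆ U := by
    have : 2 * r = r0 := by rw [hrdef]; ring
    rw [this]; exact hball0
  have hhalf : ball z₀ (r / 2) ⊆ U := (ball_subset_ball (by linarith only [hr])).trans hball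
  have hlipg : ∀ y ∈ ball z₀ (r / 2), ∀ z ∈ ball z₀ (r / 2),
      dist (g z) (g y) ≤ 2 / r * dist z y := by
    intro y hy z hz
    refine le_of_tendsto ((hg z (hhalf hz)).dist (hg y (hhalf hy))) ?_
    exact Filter.Eventually.of_forall fun n => lip_bound (hd n) (hb n) hr hball hy hz
  refine ⟨closedBall z₀ (r / 4), mem_nhdsWithin_of_mem_nhds (closedBall_mem_nhds _ (by positivity)),
    ?_⟩
  have hsub : closedBall z₀ (r / 4) ⊆ ball z₀ (r / 2) := closedBall_subset_ball (by linarith only [hr])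
  obtain ⟨t, ht, htf, htc⟩ := (isCompact_closedBall z₀ (r / 4)).finite_cover_balls
    (show 0 < ε * r / 8 by (clear * - hε hr0; positivity))
  have hev : ∀ᶠ n in (𝒰 : Filter ℕ), ∀ x ∈ t, dist (f n x) (g x) < ε / 4 := by
    rw [Filter.eventually_all_finite htf]
    intro x hx
    have hxU : x ∈ U := hhalf (hsub (ht hx))
    exact (hg x hxU).eventually (ball_mem_nhds _ (by positivity))
  filter_upwards [hev] with n hn z hz
  obtain ⟨x, hx, hzx⟩ := mem_iUnion₂.1 (htc hz)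
  have h1 := lip_bound (hd n) (hb n) hr hball (hsub (ht hx)) (hsub hz)
  have h2 := hlipg x (hsub (ht hx)) z (hsub hz)
  have h3 := hn x hx
  rw [mem_ball] at hzx
  have h4 : 2 / r * dist z x ≤ ε / 4 := by
    calc 2 / r * dist z x ≤ 2 / r * (ε * r / 8) := by (clear * - hzx hr0; gcongr)
      _ = ε / 4 := by field_simp; ring
  calc dist (g z) (f n z) ≤ dist (g z) (g x) + dist (g x) (f n x) + dist (f n x) (f n z) :=
        dist_triangle4 _ _ _ _
    _ < ε := by
        rw [dist_comm (g x), dist_comm (f n x) (f n z)]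
        linarith only [hε, h1, h2, h3, h4]

theorem hurwitz {U : Set ℂ} (hU : IsOpen U) {ι : Type*} {l : Filter ι} [l.NeBot]
    {F : ι → ℂ → ℂ} {g : ℂ → ℂ} (hF : TendstoLocallyUniformlyOn F g l U)
    (hd : ∀ᶠ n in l, DifferentiableOn ℂ (F n) U) {b : ℂ} (hb : b ∈ U)
    (h0 : ∀ᶠ n in l, ∀ z ∈ U, F n z ≠ 0) (hg : ¬ ∀ᶠ z in 𝓝 b, g z = 0) : g b ≠ 0 := by
  intro hgb
  have hgd : DifferentiableOn ℂ g U := hF.differentiableOn hd hU
  have hga : AnalyticAt ℂ g b := (hgd.analyticOnNhd hU) b hb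
  have hne : ∀ᶠ z in 𝓝[≠] b, g z ≠ 0 :=
    (hga.eventually_eq_zero_or_eventually_ne_zero).resolve_left hg
  rw [eventually_nhdsWithin_iff] at hne
  obtain ⟨ρ0, hρ0, hρ⟩ := Metric.eventually_nhds_iff_ball.1 (hne.and (hU.mem_nhds hb))
  set ρ := ρ0 / 2 with hρdef
  have hρpos : 0 < ρ := by (clear * - hρ0; positivity)
  have hcl : closedBall b ρ ⊆ ball b ρ0 := closedBall_subset_ball (by linarith)
  have hclU : closedBall b ρ ⊆ U := fun z hz => (hρ z (hcl hz)).2
  have hsphere : ∀ z ∈ sphere b ρ, g z ≠ 0 := by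
    intro z hz
    refine (hρ z (hcl (sphere_subset_closedBall hz))).1 ?_
    intro h
    rw [mem_singleton_iff] at h
    rw [h, mem_sphere, dist_self] at hz
    linarith only [hρpos, hz]
  have hcomp : IsCompact (sphere b ρ) := isCompact_sphere _ _
  have hnon : (sphere b ρ).Nonempty := NormedSpace.sphere_nonempty.2 hρpos.le
  have hcont : ContinuousOn (fun z => ‖g z‖) (sphere b ρ) :=
    (hgd.continuousOn.mono (sphere_subset_closedBall.trans hclU)).norm
  obtain ⟨z1, hz1, hmin⟩ := hcomp.exists_isMinOn hnon hcont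
  set m := ‖g z1‖ with hm
  have hmpos : 0 < m := norm_pos_iff.2 (hsphere z1 hz1)
  have hunif : ∀ᶠ n in l, ∀ z ∈ closedBall b ρ, dist (g z) (F n z) < m / 2 := by
    have h1 := (tendstoLocallyUniformlyOn_iff_forall_isCompact hU).1 hF (closedBall b ρ) hclU
      (isCompact_closedBall b ρ)
    exact Metric.tendstoUniformlyOn_iff.1 h1 (m / 2) (by (clear * - hmpos; positivity))
  obtain ⟨n, hn1, hn2, hn3⟩ := (hunif.and (hd.and h0)).exists
  have hinv : DiffContOnCl ℂ (fun z => (F n z)⁻¹) (ball b ρ) := by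
    refine DifferentiableOn.diffContOnCl ?_
    rw [closure_ball _ hρpos.ne']
    exact (hn2.mono hclU).inv fun z hz => hn3 z (hclU hz)
  have hbd := Complex.norm_le_of_forall_mem_frontier_norm_le isBounded_ball hinv (C := 2 / m) (by
    intro z hz
    rw [frontier_ball _ hρpos.ne'] at hz
    have h1 := hn1 z (sphere_subset_closedBall hz)
    have h2 : m ≤ ‖g z‖ := hmin hz
    have h3 : ‖g z‖ ≤ ‖F n z‖ + dist (g z) (F n z) := by
      rw [dist_eq_norm]
      have := norm_add_le (F n z) (g z - F n z)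
      simpa only [ge_iff_le, add_sub_cancel] using this
    have h4 : m / 2 ≤ ‖F n z‖ := by linarith only [h1, h2, h3]
    rw [norm_inv, inv_eq_one_div, div_le_div_iff₀ (by linarith only [hmpos, h1, h2, h3]) hmpos]
    linarith only [h1, h2, h3]) (subset_closure (mem_ball_self hρpos))
  have h5 := hn1 b (mem_closedBall_self hρpos.le)
  rw [hgb, dist_zero_left] at h5
  rw [norm_inv, inv_eq_one_div, div_le_div_iff₀
    (norm_pos_iff.2 (hn3 b hb)) hmpos] at hbd
  linarith only [hbd, h5]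

/-- a continuous square root of a differentiable function is differentiable -/
theorem sqrt_hasDerivAt {q h : ℂ → ℂ} {z h' : ℂ} (hq : ContinuousAt q z) (hz : q z ≠ 0)
    (hsq : ∀ x, q x ^ 2 = h x) (hh : HasDerivAt h h' z) :
    HasDerivAt q (h' / (2 * q z)) z := by
  rw [hasDerivAt_iff_tendsto_slope] at hh ⊢
  have h1 : Tendsto (fun y => q y + q z) (𝓝[≠] z) (𝓝 (2 * q z)) := by
    have : Tendsto (fun y => q y + q z) (𝓝 z) (𝓝 (q z + q z)) := hq.tendsto.add_const _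
    rw [← two_mul] at this
    exact this.mono_left nhdsWithin_le_nhds
  have h2 : (2 * q z) ≠ 0 := mul_ne_zero two_ne_zero hz
  have h3 := hh.div h1 h2
  refine h3.congr' ?_
  filter_upwards [h1.eventually_ne h2, self_mem_nhdsWithin] with y hy hyz
  have hyz' : y - z ≠ 0 := sub_ne_zero.2 hyz
  simp only [Pi.div_apply, slope_def_field]
  rw [← hsq y, ← hsq z]
  field_simp
  ring

/-- the family of competitors -/
def Fam (U : Set ℂ) (z₀ : ℂ) (f : ℂ → ℂ) : Prop :=
  DifferentiableOn ℂ f U ∧ MapsTo f U (ball 0 1) ∧ InjOn f U ∧ (∀ z ∈ U, deriv f z ≠ 0) ∧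
    f z₀ = 0

theorem fam_mob {U : Set ℂ} (hU : IsOpen U) {z₀ : ℂ} (hz₀ : z₀ ∈ U) {f : ℂ → ℂ}
    (h1 : DifferentiableOn ℂ f U) (h2 : MapsTo f U (ball 0 1)) (h3 : InjOn f U)
    (h4 : ∀ z ∈ U, deriv f z ≠ 0) : Fam U z₀ (fun z => mob (f z₀) (f z)) ∧
      deriv (fun z => mob (f z₀) (f z)) z₀ = deriv f z₀ / (1 - ‖f z₀‖ ^ 2) := by
  have hb : ∀ z ∈ U, ‖f z‖ < 1 := fun z hz => by simpa only [mem_ball, dist_zero_right] using h2 hz
  have hder : ∀ z ∈ U, HasDerivAt (fun z => mob (f z₀) (f z))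
      ((1 - ‖f z₀‖ ^ 2) / (1 - conj (f z₀) * f z) ^ 2 * deriv f z) z := by
    intro z hz
    have e1 := (h1.differentiableAt (hU.mem_nhds hz)).hasDerivAt
    exact (mob_hasDerivAt (hb z₀ hz₀) (hb z hz)).comp z e1
  refine ⟨⟨fun z hz => (hder z hz).differentiableAt.differentiableWithinAt, ?_, ?_, ?_, ?_⟩, ?_⟩
  · intro z hz
    simpa only [mem_ball, dist_zero_right] using mob_norm (hb z₀ hz₀) (hb z hz)
  · intro z hz z' hz' h
    exact h3 hz hz' (mob_inj (hb z₀ hz₀) (hb z hz) (hb z' hz') h)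
  · intro z hz
    rw [(hder z hz).deriv]
    exact mul_ne_zero (mob_deriv_ne (hb z₀ hz₀) (hb z hz)) (h4 z hz)
  · exact mob_self _
  · rw [(hder z₀ hz₀).deriv]
    have e1 : (1 : ℂ) - conj (f z₀) * f z₀ = 1 - ‖f z₀‖ ^ 2 := by
      rw [Complex.conj_mul']
    have e2 : (1 : ℂ) - ‖f z₀‖ ^ 2 ≠ 0 := by
      rw [← e1]; exact mob_den (hb z₀ hz₀) (hb z₀ hz₀)
    rw [e1]
    field_simp

/-- if a competitor is not onto the disc, there is a better one -/
theorem fam_improve {U : Set ℂ} (hU : IsOpen U) (hUc : IsSimplyConnected U) {z₀ : ℂ}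
    (hz₀ : z₀ ∈ U) {f : ℂ → ℂ} (hf : Fam U z₀ f) {w : ℂ} (hw : ‖w‖ < 1) (hwf : w ∉ f '' U) :
    ∃ F, Fam U z₀ F ∧ ‖deriv f z₀‖ < ‖deriv F z₀‖ := by
  obtain ⟨h1, h2, h3, h4, h5⟩ := hf
  have hb : ∀ z ∈ U, ‖f z‖ < 1 := fun z hz => by simpa only [mem_ball, dist_zero_right] using h2 hz
  set h : ℂ → ℂ := fun z => mob w (f z) with hh
  have hder : ∀ z ∈ U, HasDerivAt h
      ((1 - ‖w‖ ^ 2) / (1 - conj w * f z) ^ 2 * deriv f z) z := by
    intro z hz
    have e1 := (h1.differentiableAt (hU.mem_nhds hz)).hasDerivAt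
    exact (mob_hasDerivAt hw (hb z hz)).comp z e1
  have hne : ∀ z ∈ U, h z ≠ 0 := by
    intro z hz h0
    exact hwf ⟨z, hz, mob_eq_zero hw (hb z hz) h0⟩
  have hcont : ContinuousOn h U := fun z hz => (hder z hz).continuousAt.continuousWithinAt
  obtain ⟨q, hqc, hq⟩ := exists_continuousOn_pow_eq hUc hU hcont (by
    rintro ⟨z, hz, h0⟩
    exact hne z hz h0) two_ne_zero
  have hq0 : ∀ z ∈ U, q z ≠ 0 := by
    intro z hz h0
    apply hne z hz
    rw [← hq z, h0]; simp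
  have hqder : ∀ z ∈ U, HasDerivAt q
      (((1 - ‖w‖ ^ 2) / (1 - conj w * f z) ^ 2 * deriv f z) / (2 * q z)) z := by
    intro z hz
    exact sqrt_hasDerivAt (hqc.continuousAt (hU.mem_nhds hz)) (hq0 z hz) hq (hder z hz)
  have hqb : ∀ z ∈ U, ‖q z‖ < 1 := by
    intro z hz
    have e1 : ‖q z‖ ^ 2 < 1 := by
      rw [← norm_pow, hq z]; exact mob_norm hw (hb z hz)
    by_contra hcon
    push Not at hcon
    nlinarith only [e1, hcon]
  have hqd : DifferentiableOn ℂ q U := fun z hz =>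
    (hqder z hz).differentiableAt.differentiableWithinAt
  have hqinj : InjOn q U := by
    intro z hz z' hz' he
    have e1 : h z = h z' := by rw [← hq z, ← hq z', he]
    exact h3 hz hz' (mob_inj hw (hb z hz) (hb z' hz') e1)
  have hqne : ∀ z ∈ U, deriv q z ≠ 0 := by
    intro z hz
    rw [(hqder z hz).deriv]
    exact div_ne_zero (mul_ne_zero (mob_deriv_ne hw (hb z hz)) (h4 z hz))
      (mul_ne_zero two_ne_zero (hq0 z hz))
  obtain ⟨hF, hFd⟩ := fam_mob hU hz₀ hqd (fun z hz => by simpa only [mem_ball, dist_zero_right] using hqb z hz) hqinj hqne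
  refine ⟨_, hF, ?_⟩
  rw [hFd, (hqder z₀ hz₀).deriv, h5]
  set t := ‖q z₀‖ with ht
  have hwt : ‖w‖ = t ^ 2 := by
    rw [ht, ← norm_pow, hq z₀, hh]
    simp only
    rw [h5, mob_zero, norm_neg]
  have ht0 : 0 < t := norm_pos_iff.2 (hq0 z₀ hz₀)
  have ht1 : t < 1 := hqb z₀ hz₀
  have hd0 : 0 < ‖deriv f z₀‖ := norm_pos_iff.2 (h4 z₀ hz₀)
  have e1 : ‖(1 - (‖w‖ : ℂ) ^ 2) / (1 - conj w * 0) ^ 2 * deriv f z₀ / (2 * q z₀) /
      (1 - (t : ℂ) ^ 2)‖ = (1 - t ^ 4) * ‖deriv f z₀‖ / (2 * t) / (1 - t ^ 2) := by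
    have a1 : (1 : ℂ) - (‖w‖ : ℂ) ^ 2 = ((1 - t ^ 4 : ℝ) : ℂ) := by
      rw [hwt]; push_cast; ring
    have a2 : (1 : ℂ) - (t : ℂ) ^ 2 = ((1 - t ^ 2 : ℝ) : ℂ) := by push_cast; ring
    rw [a1, a2]
    simp only [norm_div, norm_mul, Complex.norm_real, Real.norm_eq_abs, mul_zero, sub_zero,
      one_pow, norm_one, div_one, Complex.norm_ofNat]
    rw [abs_of_nonneg (by nlinarith only [pow_le_one₀ ht0.le ht1.le (n := 4)] : 0 ≤ 1 - t ^ 4),
      abs_of_nonneg (by linarith : 0 ≤ 1 - t ^ 2)]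
  rw [e1]
  have h6 : 0 < 1 - t ^ 2 := by nlinarith only [hw, hwt]
  rw [div_div, lt_div_iff₀ (by (clear * - ht0 h6; positivity))]
  have h7 : ‖deriv f z₀‖ * (2 * t * (1 - t ^ 2)) < ‖deriv f z₀‖ * (1 - t ^ 4) := by
    apply mul_lt_mul_of_pos_left _ hd0
    have : 1 - t ^ 4 = (1 - t ^ 2) * (1 + t ^ 2) := by ring
    rw [this]
    have h8 : 2 * t < 1 + t ^ 2 := by nlinarith only [ht1]
    (clear * - hwt hw h8 ht0; nlinarith)
  linarith only [h7]

theorem exists_extremal {U : Set ℂ} (hU : IsOpen U) (hUc : IsSimplyConnected U)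
    (hne : U ≠ univ) {z₀ : ℂ} (hz₀ : z₀ ∈ U) :
    ∃ g, Fam U z₀ g ∧ ∀ f, Fam U z₀ f → ‖deriv f z₀‖ ≤ ‖deriv g z₀‖ := by
  -- nonempty
  obtain ⟨f0, hf01, hf02, hf03⟩ := step2 hU hUc hne
  have hf0d : DifferentiableOn ℂ f0 U := fun z hz =>
    (differentiableAt_of_deriv_ne_zero (hf03 z hz)).differentiableWithinAt
  obtain ⟨hF0, -⟩ := fam_mob hU hz₀ hf0d hf01 hf02 hf03
  set S : Set ℝ := {x | ∃ f, Fam U z₀ f ∧ x = ‖deriv f z₀‖} with hS
  have hSne : S.Nonempty := ⟨_, _, hF0, rfl⟩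
  obtain ⟨R, hR, hRU⟩ := Metric.isOpen_iff.1 hU z₀ hz₀
  have hSb : BddAbove S := by
    refine ⟨1 / R, ?_⟩
    rintro _ ⟨f, ⟨h1, h2, -, -, h5⟩, rfl⟩
    apply Complex.norm_deriv_le_div_of_mapsTo_ball (h1.mono hRU) _ hR
    intro z hz
    rw [h5]
    exact ball_subset_closedBall (h2 (hRU hz))
  have hseq : ∀ n : ℕ, ∃ f, Fam U z₀ f ∧ sSup S - 1 / ((n : ℝ) + 1) < ‖deriv f z₀‖ := by
    intro n
    obtain ⟨x, ⟨f, hf, rfl⟩, hx⟩ := exists_lt_of_lt_csSup hSne
      (show sSup S - 1 / ((n : ℝ) + 1) < sSup S by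
        have : (0 : ℝ) < 1 / ((n : ℝ) + 1) := by (clear * -; positivity)
        linarith only [this])
    exact ⟨f, hf, hx⟩
  choose f hf hfx using hseq
  let 𝒰 : Ultrafilter ℕ := hyperfilter ℕ
  have h𝒰 : (𝒰 : Filter ℕ) ≤ atTop := Nat.hyperfilter_le_atTop
  obtain ⟨g, hg⟩ := exists_limit hU 𝒰 f (fun n => (hf n).1)
    (fun n z hz => by
      have := (hf n).2.1 hz
      rw [mem_ball_zero_iff] at this
      exact this.le)
  have hdall : ∀ᶠ n in (𝒰 : Filter ℕ), DifferentiableOn ℂ (f n) U :=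
    Filter.Eventually.of_forall fun n => (hf n).1
  have hgd : DifferentiableOn ℂ g U := hg.differentiableOn hdall hU
  have hgder := hg.deriv hdall hU
  have hpt : ∀ z ∈ U, Tendsto (fun n => f n z) 𝒰 (𝓝 (g z)) := fun z hz =>
    hg.tendsto_at hz
  have hptd : ∀ z ∈ U, Tendsto (fun n => deriv (f n) z) 𝒰 (𝓝 (deriv g z)) := fun z hz =>
    hgder.tendsto_at hz
  have hMle : sSup S ≤ ‖deriv g z₀‖ := by
    have h1 : Tendsto (fun n : ℕ => sSup S - 1 / ((n : ℝ) + 1)) 𝒰 (𝓝 (sSup S - 0)) :=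
      (tendsto_one_div_add_atTop_nhds_zero_nat.mono_left h𝒰).const_sub _
    rw [sub_zero] at h1
    exact le_of_tendsto_of_tendsto' h1 (hptd z₀ hz₀).norm (fun n => (hfx n).le)
  have hMpos : 0 < sSup S := by
    refine lt_of_lt_of_le (norm_pos_iff.2 (hF0.2.2.2.1 z₀ hz₀)) (le_csSup hSb ⟨_, hF0, rfl⟩)
  have hgz₀ : deriv g z₀ ≠ 0 := norm_pos_iff.1 (lt_of_lt_of_le hMpos hMle)
  have hconn : IsPreconnected U := hUc.isPathConnected.isConnected.isPreconnected
  -- derivative does not vanish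
  have hderne : ∀ z ∈ U, deriv g z ≠ 0 := by
    intro b hb
    have hdd : ∀ᶠ n in (𝒰 : Filter ℕ), DifferentiableOn ℂ ((deriv ∘ f) n) U :=
      Filter.Eventually.of_forall fun n => (hf n).1.deriv hU
    refine hurwitz hU hgder hdd hb (Filter.Eventually.of_forall fun n => (hf n).2.2.2.1) ?_
    intro h0
    have han : AnalyticOnNhd ℂ (deriv g) U := (hgd.deriv hU).analyticOnNhd hU
    exact hgz₀ (han.eqOn_zero_of_preconnected_of_eventuallyEq_zero hconn hb h0 hz₀)
  have hgle : ∀ z ∈ U, ‖g z‖ ≤ 1 := by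
    intro z hz
    refine le_of_tendsto (hpt z hz).norm (Filter.Eventually.of_forall fun n => ?_)
    have := (hf n).2.1 hz
    rw [mem_ball_zero_iff] at this
    exact this.le
  have hglt : MapsTo g U (ball 0 1) := by
    intro z hz
    rw [mem_ball_zero_iff]
    refine lt_of_le_of_ne (hgle z hz) ?_
    intro h1
    have hmax : IsMaxOn (norm ∘ g) U z := by
      intro y hy
      simp only [Function.comp]
      show ‖g y‖ ≤ ‖g z‖
      rw [h1]; exact hgle y hy
    have hconst := Complex.eqOn_of_isPreconnected_of_isMaxOn_norm hconn hU hgd hz hmax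
    have h2 : deriv g z₀ = 0 := by
      have : g =ᶠ[𝓝 z₀] fun _ => g z := by
        filter_upwards [hU.mem_nhds hz₀] with y hy
        exact hconst hy
      rw [this.deriv_eq]; simp
    exact hgz₀ h2
  have hinj : InjOn g U := by
    intro a ha b hb hab
    by_contra hne
    have hU' : IsOpen (U \ {a}) := hU.sdiff isClosed_singleton
    have hbU' : b ∈ U \ {a} := ⟨hb, fun h => hne (by rw [mem_singleton_iff] at h; exact h.symm)⟩
    have hconv : TendstoLocallyUniformlyOn (fun n z => f n z - f n a) (fun z => g z - g a)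
        (𝒰 : Filter ℕ) (U \ {a}) := by
      have h1 : TendstoLocallyUniformlyOn f g (𝒰 : Filter ℕ) (U \ {a}) :=
        hg.mono sdiff_subset
      rw [Metric.tendstoLocallyUniformlyOn_iff] at h1 ⊢
      intro ε hε x hx
      obtain ⟨t, ht, h2⟩ := h1 (ε / 2) (by (clear * - hε; positivity)) x hx
      refine ⟨t, ht, ?_⟩
      have h3 := (hpt a ha).eventually (ball_mem_nhds _ (show 0 < ε / 2 by (clear * - hε; positivity)))
      filter_upwards [h2, h3] with n hn hn2 y hy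
      have h4 := hn y hy
      rw [dist_eq_norm] at hn2 h4 ⊢
      have h5 : g y - g a - (f n y - f n a) = (g y - f n y) + (f n a - g a) := by ring
      rw [h5]
      have := norm_add_le (g y - f n y) (f n a - g a)
      linarith only [hn2, h4, this]
    have h0 : ∀ᶠ n in (𝒰 : Filter ℕ), ∀ z ∈ U \ {a}, f n z - f n a ≠ 0 := by
      refine Filter.Eventually.of_forall fun n z hz h => ?_
      have := (hf n).2.2.1 hz.1 ha (sub_eq_zero.1 h)
      exact hz.2 (by rw [mem_singleton_iff]; exact this)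
    have hdd : ∀ᶠ n in (𝒰 : Filter ℕ), DifferentiableOn ℂ (fun z => f n z - f n a) (U \ {a}) :=
      Filter.Eventually.of_forall fun n => ((hf n).1.mono sdiff_subset).sub_const _
    refine hurwitz hU' hconv hdd hbU' h0 ?_ (by rw [hab]; ring)
    intro h1
    have h2 : deriv (fun z => g z - g a) b = 0 := by
      have : (fun z => g z - g a) =ᶠ[𝓝 b] fun _ => 0 := h1
      rw [this.deriv_eq]; simp
    rw [deriv_sub_const] at h2
    exact hderne b hb h2
  have hg0 : g z₀ = 0 := by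
    refine tendsto_nhds_unique (hpt z₀ hz₀) ?_
    refine tendsto_const_nhds.congr (fun n => ?_)
    exact ((hf n).2.2.2.2).symm
  refine ⟨g, ⟨hgd, hglt, hinj, hderne, hg0⟩, fun f hf => ?_⟩
  exact (le_csSup hSb ⟨f, hf, rfl⟩).trans hMle

/-- Riemann mapping theorem, map onto the disc -/
theorem exists_onto_disc {U : Set ℂ} (hU : IsOpen U) (hUc : IsSimplyConnected U)
    (hne : U ≠ univ) {z₀ : ℂ} (hz₀ : z₀ ∈ U) :
    ∃ g : ℂ → ℂ, DifferentiableOn ℂ g U ∧ InjOn g U ∧ g '' U = ball 0 1 ∧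
      (∀ z ∈ U, deriv g z ≠ 0) ∧ g z₀ = 0 := by
  obtain ⟨g, hg, hmax⟩ := exists_extremal hU hUc hne hz₀
  refine ⟨g, hg.1, hg.2.2.1, ?_, hg.2.2.2.1, hg.2.2.2.2⟩
  apply Subset.antisymm
  · exact hg.2.1.image_subset
  · intro w hw
    by_contra hwf
    rw [mem_ball_zero_iff] at hw
    obtain ⟨F, hF, hlt⟩ := fam_improve hU hUc hz₀ hg hw hwf
    exact absurd (hmax F hF) (not_le.2 hlt)

end Vale.Agent.N142H.RMT
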