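import Vale.Agent.N142H.Cor
import Vale.Agent.N142H.Rmt

/-!
P142, harmonic measure form: lower bounds, the slit plane, and the passage to simply connected
domains.
-/

open Complex MeasureTheory Metric Set Filter Topology
open scoped Real ComplexConjugate ENNReal NNReal

namespace Vale.Agent.N142H

open Vale.Agent.P142 Vale.Agent.P142.H838 Vale.Agent.N142

noncomputable section

variable {W : Set ℂ} {φ f : ℂ → ℂ} {a w z ζ : ℂ} {R : ℝ} {ω : Measure ℂ}

lemma Pair.lower (P : Pair W φ f) (hζ : ζ ∉ W) (hR : 0 < R) (hz : z ∈ ball (0 : ℂ) 1)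
    (h : ‖f z - ζ‖ < (1 / (16 * KB)) ^ 4 * R) : (1 - ‖z‖) / 4 ≤ (hm f).real (ball ζ (2 * R)) := by
  have hK := one_le_KB
  have := hm_prob P.uf
  have h0 := one_sub_pos hz
  have h1 := P.conc_pk hζ hR (by positivity) (one_div_le_one_div_of_le two_pos (by linarith)) hz h
  have hb : ∀ w, |bmp ζ R w| ≤ 1 := fun w =>
    abs_le.mpr ⟨by linarith [bmp_nonneg ζ R w], bmp_le ζ R w⟩
  have h2 := int_pk P.uf hz (bmp_cont ζ R) hb
  have h3 := int_pk P.uf (mem_ball_self one_pos) (bmp_cont ζ R) hb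
  simp only [pk_zero, one_mul] at h3
  simp only [mul_sub, mul_one] at h1
  rw [integral_sub (int_pk' hz) h2, pk_int hz, show 8 * KB * (1 / (16 * KB)) = 1 / 2 by
    field_simp; norm_num] at h1
  have h4 := integral_mono h2 (h3.const_mul (2 / (1 - ‖z‖))) fun θ =>
    mul_le_mul_of_nonneg_right (pk_le hz θ) (bmp_nonneg _ _ _)
  rw [integral_const_mul, ← P.int_hm (bmp_cont ζ R).continuousOn] at h4
  have h5 : ∫ w, bmp ζ R w ∂(hm f) ≤ (hm f).real (ball ζ (2 * R)) := by
    rw [← integral_indicator_one measurableSet_ball]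
    refine integral_mono_of_nonneg (Eventually.of_forall (bmp_nonneg ζ R))
      ((integrable_const (1 : ℝ)).indicator measurableSet_ball) (Eventually.of_forall fun w => ?_)
    by_cases hw : w ∈ ball ζ (2 * R)
    · rw [indicator_of_mem hw]
      exact bmp_le ζ R w
    · rw [indicator_of_notMem hw]
      exact (bmp_zero hR (not_lt.mp fun h => hw (mem_ball_iff_norm.mpr h))).le
  have h6 : 1 / 2 ≤ 2 / (1 - ‖z‖) * (hm f).real (ball ζ (2 * R)) := by
    refine le_trans (by linarith) (h4.trans (mul_le_mul_of_nonneg_left h5 (by positivity)))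
  rw [div_mul_eq_mul_div, le_div_iff₀ h0] at h6
  linarith

/-- The maximal function dominates the derivative of the conformal map. -/
lemma Pair.converse (P : Pair W φ f) (hw : w ∈ W) :
    ∃ r : ℝ, 0 < r ∧ ‖deriv φ w‖ * r ≤ 60 * (16 * KB) ^ 4 * (hm f).real (ball w r) := by
  have hK := one_le_KB
  have := hm_prob P.uf
  have hz := P.mφ hw
  obtain ⟨c, hc, h1⟩ := near_omitted P.uf hz
  have h0 := one_sub_pos hz
  have h2 : 0 < ‖deriv f (φ w)‖ := norm_pos_iff.mpr (univ_deriv_ne_zero P.uf hz)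
  have h3 : c ∉ W := by
    rw [← P.im]
    rintro ⟨y, hy, e⟩
    exact hc y hy e
  have h4 := P.der _ hz
  rw [P.r w hw] at h4
  set X : ℝ := (1 - ‖φ w‖) * ‖deriv f (φ w)‖ with hX
  have hX0 : 0 < X := by positivity
  have hQ : 1 ≤ (16 * KB) ^ 4 := one_le_pow₀ (by linarith)
  have h5 := P.lower h3 (R := 5 * X * (16 * KB) ^ 4) (by positivity) hz (by
    refine h1.trans_lt (lt_of_lt_of_eq (by linarith : 4 * X < 5 * X) ?_)
    field_simp)
  rw [P.r w hw] at h1
  have h6 : (hm f).real (ball c (2 * (5 * X * (16 * KB) ^ 4))) ≤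
      (hm f).real (ball w (15 * X * (16 * KB) ^ 4)) := by
    refine measureReal_mono (ball_subset_ball' ?_)
    rw [dist_comm, dist_eq_norm]
    nlinarith
  refine ⟨15 * X * (16 * KB) ^ 4, by positivity, le_trans (le_of_eq ?_)
    (mul_le_mul_of_nonneg_left (h5.trans h6) (by positivity))⟩
  rw [h4, norm_inv, hX]
  field_simp
  norm_num

lemma exists_conf (hW : IsOpen W) (hc : IsSimplyConnected W) (hne : W ≠ univ) (ha : a ∈ W) :
    ∃ φ : ℂ → ℂ, DifferentiableOn ℂ φ W ∧ BijOn φ W (ball 0 1) ∧ φ a = 0 := by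
  obtain ⟨g, h1, h2, h3, -, h4⟩ := RMT.exists_onto_disc hW hc hne ha
  exact ⟨g, h1, h3 ▸ h2.bijOn_image, h4⟩

lemma Pair.eq_hm (P : Pair W φ f) (ha : a ∈ W) (h0 : φ a = 0) (h : IsHarmonicMeasure W a ω) :
    f 0 = a ∧ ω = hm f := by
  have h1 : f 0 = a := by rw [← h0, P.r a ha]
  exact ⟨h1, P.unique h (h1 ▸ P.isHarm)⟩

theorem exists_unique_harm (hW : IsOpen W) (hc : IsSimplyConnected W) (hne : W ≠ univ)
    (ha : a ∈ W) : ∃! ω : Measure ℂ, IsHarmonicMeasure W a ω := by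
  obtain ⟨φ, h1, h2, h3⟩ := exists_conf hW hc hne ha
  obtain ⟨f, P⟩ := exists_pair hW h1 h2
  have h4 : f 0 = a := by rw [← h3, P.r a ha]
  exact ⟨hm f, h4 ▸ P.isHarm, fun ω h => (P.eq_hm ha h3 h).2⟩

theorem exists_WT : ∃ C : ℝ, 0 < C ∧ ∀ W : Set ℂ, IsOpen W → IsSimplyConnected W → W ≠ univ →
    ∀ a ∈ W, ∀ ω : Measure ℂ, IsHarmonicMeasure W a ω →
      0 < infDist a Wᶜ ∧ WT ω (C / infDist a Wᶜ ^ 2) := by
  obtain ⟨C, hC, h⟩ := weak_four
  refine ⟨C, hC, fun W hW hc hne a ha ω hω => ?_⟩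
  obtain ⟨φ, h1, h2, h3⟩ := exists_conf hW hc hne ha
  obtain ⟨f, P⟩ := exists_pair hW h1 h2
  obtain ⟨rfl, rfl⟩ := P.eq_hm ha h3 hω
  have := hm_prob P.uf
  refine ⟨P.d_pos (mem_ball_self one_pos), fun l hl => le_trans (measure_mono ?_)
    ((h W φ f P l hl).trans (le_of_eq ?_))⟩
  · rintro x ⟨r, hr, h4⟩
    exact ⟨r, hr, (ENNReal.ofReal_lt_iff_lt_toReal (by positivity) (measure_ne_top _ _)).mpr h4⟩
  · rw [div_div, mul_comm]

/-- The conformal map of the slit plane onto the disc. -/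
def slit (w : ℂ) : ℂ := (w ^ (2⁻¹ : ℂ) - 1) / (w ^ (2⁻¹ : ℂ) + 1)

lemma sqrt_re_pos (hw : w ∈ slitPlane) : 0 < (w ^ (2⁻¹ : ℂ)).re := by
  have h0 := slitPlane_ne_zero hw
  have h1 : w ^ (2⁻¹ : ℂ) = w ^ ((2⁻¹ : ℝ) : ℂ) := by norm_num
  rw [h1, cpow_ofReal_re]
  refine mul_pos (Real.rpow_pos_of_pos (norm_pos_iff.mpr h0) _) (Real.cos_pos_of_mem_Ioo ⟨?_, ?_⟩)
  · linarith [neg_pi_lt_arg w]
  · linarith [arg_lt_pi_iff.mpr (mem_slitPlane_iff.mp hw |>.imp_left le_of_lt)]

lemma add_one_ne {u : ℂ} (hu : 0 < u.re) : u + 1 ≠ 0 := fun h => by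
  have := congrArg Complex.re h
  simp at this
  linarith

lemma slit_diff : DifferentiableOn ℂ slit slitPlane := by
  have h : DifferentiableOn ℂ (fun w : ℂ => w ^ (2⁻¹ : ℂ)) slitPlane := fun w hw =>
    (differentiableAt_id.cpow_const hw).differentiableWithinAt
  exact (h.sub_const 1).div (h.add_const 1) fun w hw => add_one_ne (sqrt_re_pos hw)

lemma slit_bij : BijOn slit slitPlane (ball 0 1) := by
  refine ⟨fun w hw => ?_, fun w hw w' hw' h => ?_, fun z hz => ?_⟩
  · have h1 := sqrt_re_pos hw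
    rw [mem_ball_zero_iff, slit, norm_div, div_lt_one (norm_pos_iff.mpr (add_one_ne h1)),
      ← sq_lt_sq₀ (norm_nonneg _) (norm_nonneg _), Complex.sq_norm, Complex.sq_norm,
      normSq_apply, normSq_apply]
    simp
    nlinarith
  · rw [slit, slit, div_eq_div_iff (add_one_ne (sqrt_re_pos hw)) (add_one_ne (sqrt_re_pos hw'))]
      at h
    have h1 : w ^ (2⁻¹ : ℂ) = w' ^ (2⁻¹ : ℂ) := by linear_combination h / 2
    rw [← cpow_ofNat_inv_pow w 2, h1, cpow_ofNat_inv_pow]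
  · have h1 : (1 : ℂ) - z ≠ 0 := fun h => by
      rw [mem_ball_zero_iff, ← sub_eq_zero.mp h] at hz
      simp at hz
    have h2 : 0 < ((1 + z) / (1 - z)).re := by
      have h3 : ‖z‖ ^ 2 < 1 := by
        rw [mem_ball_zero_iff] at hz
        nlinarith [norm_nonneg z]
      rw [Complex.sq_norm, normSq_apply] at h3
      rw [div_re, ← add_div]
      refine div_pos ?_ (normSq_pos.mpr h1)
      simp
      nlinarith
    refine ⟨((1 + z) / (1 - z)) ^ 2, ?_, ?_⟩
    · generalize (1 + z) / (1 - z) = u at h2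
      rw [mem_slitPlane_iff, sq, mul_re, mul_im]
      by_cases h3 : u.im = 0
      · left
        rw [h3]
        nlinarith
      · right
        have := mul_ne_zero h2.ne' h3
        intro h4
        apply this
        linarith
    · rw [slit, sq_cpow_two_inv h2, div_eq_iff (add_one_ne h2)]
      field_simp
      ring

lemma slit_sc : IsSimplyConnected slitPlane := by
  have := starConvex_one_slitPlane.contractibleSpace ⟨1, one_mem_slitPlane⟩
  exact SimplyConnectedSpace.ofContractible _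

lemma slit_ne : slitPlane ≠ univ := fun h => zero_notMem_slitPlane (h ▸ mem_univ _)

theorem slit_lower : ∃ c : ℝ, 0 < c ∧ c ≤ 1 ∧ ∀ ω : Measure ℂ, IsHarmonicMeasure slitPlane 1 ω →
    ∀ r : ℝ, 0 < r → r ≤ 1 → c * √r ≤ ω.real (ball 0 r) := by
  have hK := one_le_KB
  obtain ⟨f, P⟩ := exists_pair isOpen_slitPlane slit_diff slit_bij
  set q : ℝ := 1 / (16 * KB) with hq
  have hq0 : 0 < q := by positivity
  have hq1 : q ≤ 1 := by
    rw [hq, div_le_one (by positivity)]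
    linarith
  have hq2 : q ^ 2 ≤ 1 := pow_le_one₀ hq0.le hq1
  refine ⟨q ^ 2 / 8, by positivity, by linarith, fun ω hω r hr hr1 => ?_⟩
  obtain ⟨-, rfl⟩ := P.eq_hm one_mem_slitPlane (by simp [slit]) hω
  set t : ℝ := q ^ 2 * √r / 2 with ht
  have hs := Real.sqrt_pos.mpr hr
  have hs1 : √r ≤ 1 := Real.sqrt_le_one.mpr hr1
  have ht0 : 0 < t := by positivity
  have ht1 : t ≤ 1 := by nlinarith
  have h1 : ((t : ℂ) ^ 2) ∈ slitPlane := by
    rw [← ofReal_pow, ofReal_mem_slitPlane]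
    positivity
  have h2 := P.lower zero_notMem_slitPlane (R := r / 2) (by positivity) (P.mφ h1) (by
    rw [P.r _ h1, sub_zero, norm_pow, Complex.norm_real, Real.norm_eq_abs, sq_abs, ht, div_pow,
      mul_pow, Real.sq_sqrt hr.le, ← hq]
    nlinarith [mul_pos (pow_pos hq0 4) hr])
  rw [mul_div_cancel₀ _ two_ne_zero, slit, sq_cpow_two_inv (by simpa using ht0), norm_div,
    ← ofReal_one, ← ofReal_sub, ← ofReal_add, Complex.norm_real, Complex.norm_real,
    Real.norm_eq_abs, Real.norm_eq_abs, abs_of_nonpos (by linarith), abs_of_pos (by linarith)] at h2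
  refine le_trans ?_ h2
  have h3 : -(t - 1) / (t + 1) ≤ 1 - t := by
    rw [div_le_iff₀ (by linarith)]
    nlinarith
  linarith

theorem slit_sharp : ∃ c : ℝ, 0 < c ∧ ∀ ω : Measure ℂ, IsHarmonicMeasure slitPlane 1 ω →
    (∀ r : ℝ, 0 < r → r ≤ 1 → c * √r ≤ ω.real (ball 0 r)) ∧ ∀ l : ℝ, 1 ≤ l →
      ENNReal.ofReal ((c / l) ^ 4) ≤
        volume {x | ∃ r : ℝ, 0 < r ∧ l * r < ω.real (ball x r)} := by
  obtain ⟨c, h0, h1, h⟩ := slit_lower
  refine ⟨c / 3, by positivity, fun ω hω => ⟨fun r hr hr1 => le_trans (by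
    nlinarith [Real.sqrt_nonneg r]) (h ω hω r hr hr1), fun l hl => ?_⟩⟩
  have := hω.1
  set t : ℝ := c / 3 / l with ht
  have ht0 : 0 < t := by positivity
  have ht1 : t ≤ 1 := by
    rw [ht, div_le_one (by linarith)]
    linarith
  have h2 := h ω hω (t ^ 2) (by positivity) (pow_le_one₀ ht0.le ht1)
  rw [Real.sqrt_sq ht0.le] at h2
  refine le_trans ?_ (measure_mono (s := ball 0 (t ^ 2)) fun x hx => ⟨2 * t ^ 2, by positivity,
    lt_of_lt_of_le ?_ (h2.trans (measureReal_mono (ball_subset_ball' ?_)))⟩)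
  · rw [ball_vol (by positivity)]
    apply ENNReal.ofReal_le_ofReal
    nlinarith [Real.pi_gt_three, pow_pos ht0 4]
  · have : l * t = c / 3 := by
      rw [ht]
      field_simp
    nlinarith [mul_pos h0 ht0]
  · rw [dist_comm]
    linarith [mem_ball.mp hx]

end

end Vale.Agent.N142H
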