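import Vale.Agent.N142H.Dir

/-!
P142, harmonic measure form: the weak type estimate of the maximal function.
-/

open Complex MeasureTheory Metric Set Filter Topology
open scoped Real ComplexConjugate ENNReal

namespace Vale.Agent.N142H

open Vale.Agent.P142 Vale.Agent.P142.H838 Vale.Agent.N142

noncomputable section

variable {W : Set ℂ} {φ f : ℂ → ℂ} {x z ζ : ℂ} {δ r l : ℝ}

/-- The harmonic measure of a disc is bounded by a mean of `|φ'|` over the doubled disc. -/
lemma Pair.ball_le (P : Pair W φ f) (hδ : 0 < δ)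
    (hav : ∀ θ, 2 * δ ≤ ‖f (circleMap 0 (1 / 2) θ) - x‖) :
    hm f (ball x δ) ≤ ENNReal.ofReal (KB / (π * δ)) *
      ∫⁻ w in W, (closedBall x (2 * δ)).indicator (fun w => ‖deriv φ w‖ₑ) w := by
  have hK := KB_pos
  have h1 : ∀ n, ∫⁻ θ, ENNReal.ofReal (bmp x δ (f (circleMap 0 (rr n) θ))) ∂nu ≤
      ENNReal.ofReal (KB / (π * δ)) *
        ∫⁻ w in W, (closedBall x (2 * δ)).indicator (fun w => ‖deriv φ w‖ₑ) w := by
    intro n
    have h2 := mean_le (contDiffOn_comp (bmp_contDiff x δ) P.uf.1) (rr_ge n) (rr_lt n)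
    simp only [fun θ => bmp_zero hδ (hav θ), sub_zero] at h2
    have h3 : ∀ z ∈ ball (0 : ℂ) 1, ‖fderiv ℝ (fun z => bmp x δ (f z)) z‖ₑ ≤
        ENNReal.ofReal (KB / δ) * (ENNReal.ofReal (‖deriv f z‖ ^ 2) *
          (closedBall x (2 * δ)).indicator (fun w => ‖deriv φ w‖ₑ) (f z)) := by
      intro z hz
      have h4 := norm_fderiv_comp (bmp_contDiff x δ) P.uf.1 hz
      rw [← ofReal_norm]
      by_cases h5 : f z ∈ closedBall x (2 * δ)
      · have h6 : 0 < ‖deriv f z‖ := norm_pos_iff.mpr (univ_deriv_ne_zero P.uf hz)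
        rw [indicator_of_mem h5, P.der z hz, ← ofReal_norm, norm_inv,
          ← ENNReal.ofReal_mul (by positivity), ← ENNReal.ofReal_mul (by positivity)]
        apply ENNReal.ofReal_le_ofReal
        refine h4.trans ((mul_le_mul_of_nonneg_right (bmp_grad hδ _) h6.le).trans (le_of_eq ?_))
        field_simp
      · rw [bmp_grad_out hδ h5, norm_zero, zero_mul] at h4
        rw [ENNReal.ofReal_of_nonpos h4]
        exact zero_le
    have h4 := setLIntegral_mono' (μ := volume) measurableSet_ball h3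
    rw [lintegral_const_mul' _ _ ENNReal.ofReal_ne_top, ← change P.uf, P.im] at h4
    rw [lint_nu]
    have h5 : ∫⁻ θ in Ioo (-π) π, ENNReal.ofReal (bmp x δ (f (circleMap 0 (rr n) θ))) ≤ _ :=
      le_trans (lintegral_mono fun θ => Real.ofReal_le_enorm _) (h2.trans (mul_le_mul_right h4 2))
    refine (mul_le_mul_right h5 _).trans (le_of_eq ?_)
    have : (2 : ℝ≥0∞) = ENNReal.ofReal 2 := by simp
    rw [← mul_assoc, ← mul_assoc, this, ← ENNReal.ofReal_inv_of_pos (by positivity),
      ← ENNReal.ofReal_mul (by positivity), ← ENNReal.ofReal_mul (by positivity)]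
    congr 2
    field_simp
  have hb : Measurable fun w => ENNReal.ofReal (bmp x δ w) :=
    (bmp_cont x δ).measurable.ennreal_ofReal
  calc hm f (ball x δ) = ∫⁻ w, (ball x δ).indicator 1 w ∂(hm f) :=
        (lintegral_indicator_one measurableSet_ball).symm
    _ ≤ ∫⁻ w, ENNReal.ofReal (bmp x δ w) ∂(hm f) := by
        refine lintegral_mono fun w => ?_
        by_cases hw : w ∈ ball x δ
        · rw [indicator_of_mem hw, bmp_one hδ (mem_ball_iff_norm.mp hw).le]
          simp
        · rw [indicator_of_notMem hw]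
          exact zero_le
    _ = ∫⁻ θ, ENNReal.ofReal (bmp x δ (bv f (circleMap 0 1 θ))) ∂nu :=
        lintegral_map' hb.aemeasurable (bv_aem P.uf)
    _ = ∫⁻ θ, liminf (fun n => ENNReal.ofReal (bmp x δ (f (circleMap 0 (rr n) θ)))) atTop ∂nu := by
        refine lintegral_congr_ae ?_
        filter_upwards [ae_nu (ae_bv P.uf)] with θ hθ
        exact (ENNReal.tendsto_ofReal (((bmp_cont x δ).tendsto _).comp hθ)).liminf_eq.symm
    _ ≤ _ := (lintegral_liminf_le fun n => hb.comp
        (cont_circ P.uf.1 (rr_pos n).le (rr_lt n)).measurable).trans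
        (liminf_le_of_frequently_le' (Frequently.of_forall h1))

/-- Lower growth bound away from an omitted value. -/
lemma lower_growth (hf : Univ f) (hζ : ∀ z ∈ ball (0 : ℂ) 1, f z ≠ ζ) (hz : z ∈ ball (0 : ℂ) 1) :
    (1 - ‖z‖) ^ 2 * ‖f 0 - ζ‖ ≤ 4 * ‖f z - ζ‖ := by
  have hne : ∀ y ∈ ball (0 : ℂ) 1, f y - ζ ≠ 0 := fun y hy => sub_ne_zero.mpr (hζ y hy)
  have hk : Univ fun y => (f y - ζ)⁻¹ := ⟨(hf.1.sub_const ζ).inv hne, fun a ha b hb hab =>
    hf.2 ha hb (sub_left_injective (inv_injective hab))⟩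
  have h := growth' hk (ζ := 0) (fun y hy => inv_ne_zero (hne y hy)) hz
  have h1 : 0 < ‖f z - ζ‖ := norm_pos_iff.mpr (hne z hz)
  have h2 : 0 < ‖f 0 - ζ‖ := norm_pos_iff.mpr (hne 0 (mem_ball_self one_pos))
  simp only [sub_zero, norm_inv] at h
  rwa [← div_eq_mul_inv, ← div_eq_mul_inv, div_le_div_iff₀ h1 h2] at h

/-- The tail of a function of weak type four. -/
lemma tail_le {Y : ℂ → ℝ} (hY : Measurable Y) (hY0 : ∀ w, 0 ≤ Y w) {A : ℝ} (hA : 0 ≤ A)
    (h : ∀ t : ℝ, 0 < t → volume {w | w ∈ W ∧ t < Y w} ≤ ENNReal.ofReal (A / t ^ 4)) (hl : 0 < l) :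
    ∫⁻ w in {w | l < Y w} ∩ W, ENNReal.ofReal (Y w) ≤ ENNReal.ofReal (4 / 3 * A / l ^ 3) := by
  rw [lintegral_eq_lintegral_meas_lt _ (Eventually.of_forall hY0) hY.aemeasurable,
    ← Ioc_union_Ioi_eq_Ioi hl.le]
  refine (lintegral_union_le _ _ _).trans ?_
  have hm : ∀ t : ℝ, MeasurableSet {w | t < Y w} := fun t => measurableSet_lt measurable_const hY
  have h1 : ∫⁻ t in Ioc 0 l, volume.restrict ({w | l < Y w} ∩ W) {w | t < Y w} ≤
      ENNReal.ofReal (A / l ^ 3) := by
    refine (setLIntegral_mono' (g := fun _ => ENNReal.ofReal (A / l ^ 4)) measurableSet_Ioc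
      fun t _ => ?_).trans (le_of_eq ?_)
    · rw [Measure.restrict_apply (hm t)]
      refine le_trans (measure_mono ?_) (h l hl)
      exact fun w hw => ⟨hw.2.2, hw.2.1⟩
    · rw [setLIntegral_const, Real.volume_Ioc, ← ENNReal.ofReal_mul (by positivity)]
      congr 1
      field_simp
      ring
  have h2 : ∫⁻ t in Ioi l, volume.restrict ({w | l < Y w} ∩ W) {w | t < Y w} ≤
      ENNReal.ofReal (A / (3 * l ^ 3)) := by
    refine (setLIntegral_mono' (g := fun t => ENNReal.ofReal (A * t ^ (-4 : ℝ))) measurableSet_Ioi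
      fun t ht => ?_).trans (le_of_eq ?_)
    · have ht0 : 0 < t := hl.trans ht
      rw [Measure.restrict_apply (hm t)]
      refine le_trans (measure_mono ?_) ((h t ht0).trans (le_of_eq ?_))
      · exact fun w hw => ⟨hw.2.2, hw.1⟩
      rw [Real.rpow_neg ht0.le, div_eq_mul_inv]
      norm_num
    · rw [← ofReal_integral_eq_lintegral_ofReal
        ((integrableOn_Ioi_rpow_of_lt (by norm_num) hl).const_mul A)
        ((ae_restrict_iff' measurableSet_Ioi).mpr (Eventually.of_forall fun t ht =>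
          mul_nonneg hA (Real.rpow_nonneg (hl.trans ht).le _))), integral_const_mul,
        integral_Ioi_rpow_of_lt (by norm_num) hl]
      congr 1
      rw [show (-4 : ℝ) + 1 = -3 by norm_num, Real.rpow_neg hl.le]
      norm_num
      field_simp
  refine (add_le_add h1 h2).trans (le_of_eq ?_)
  rw [← ENNReal.ofReal_add (by positivity) (by positivity)]
  congr 1
  field_simp
  ring

/-- Vitali's covering lemma in the form used here. -/
lemma vitali {S : Set ℂ} {ρ : ℂ → ℝ} {R : ℝ} (hρ : ∀ x ∈ S, 0 < ρ x ∧ ρ x ≤ R) :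
    ∃ u ⊆ S, u.Countable ∧ (u.PairwiseDisjoint fun x => closedBall x (ρ x)) ∧
      S ⊆ ⋃ b ∈ u, closedBall b (5 * ρ b) := by
  obtain ⟨u, h1, h2, h3⟩ := Vitali.exists_disjoint_subfamily_covering_enlargement_closedBall S
    id ρ R (fun a ha => (hρ a ha).2) 5 (by norm_num)
  refine ⟨u, h1, h2.countable_of_nonempty_interior fun a ha => ?_, h2, fun a ha => ?_⟩
  · exact ⟨a, ball_subset_interior_closedBall (mem_ball_self (hρ a (h1 ha)).1)⟩
  · obtain ⟨b, hb, h4⟩ := h3 a ha
    exact mem_biUnion hb (h4 (mem_closedBall_self (hρ a ha).1.le))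

lemma vitali_vol {S : Set ℂ} {ρ : ℂ → ℝ} {R : ℝ} (hρ : ∀ x ∈ S, 0 < ρ x ∧ ρ x ≤ R)
    (κ : Measure ℂ) (h : ∀ x ∈ S, volume (closedBall x (ρ x)) ≤ κ (closedBall x (ρ x))) :
    volume S ≤ 25 * κ univ := by
  obtain ⟨u, h1, h2, h3, h4⟩ := vitali hρ
  refine (measure_mono h4).trans ((measure_biUnion_le _ h2 _).trans ?_)
  refine le_trans ?_ (mul_le_mul_right (measure_mono (subset_univ
    (⋃ b ∈ u, closedBall b (ρ b)))) 25)
  rw [measure_biUnion h2 h3 fun _ _ => measurableSet_closedBall, ← ENNReal.tsum_mul_left]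
  refine ENNReal.tsum_le_tsum fun b => le_trans (le_of_eq ?_) (mul_le_mul_right (h b (h1 b.2)) 25)
  have h5 := (hρ b (h1 b.2)).1
  have : (25 : ℝ≥0∞) = ENNReal.ofReal 25 := by simp
  rw [cball_vol (by positivity), cball_vol h5.le, this, ← ENNReal.ofReal_mul (by norm_num)]
  congr 1
  ring

lemma Pair.d_pos (P : Pair W φ f) (hz : z ∈ ball (0 : ℂ) 1) : 0 < infDist (f z) Wᶜ := by
  have h := le_dist P.uf hz
  rw [P.im] at h
  have h1 := one_sub_pos hz
  have h2 : 0 < ‖deriv f z‖ := norm_pos_iff.mpr (univ_deriv_ne_zero P.uf hz)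
  exact lt_of_lt_of_le (by positivity) h

lemma Pair.weak : ∃ C : ℝ, 0 < C ∧ ∀ (W : Set ℂ) (φ f : ℂ → ℂ), Pair W φ f → ∀ t : ℝ, 0 < t →
    volume {w | w ∈ W ∧ t < ‖deriv φ w‖} ≤
      ENNReal.ofReal (C / infDist (f 0) Wᶜ ^ 2 / t ^ 4) := by
  obtain ⟨C, hC, h⟩ := weak_conf
  refine ⟨16 * C, by positivity, fun W φ f P t ht => ?_⟩
  have h00 : (0 : ℂ) ∈ ball (0 : ℂ) 1 := mem_ball_self one_pos
  have hb : BijOn φ W (ball 0 1) := ⟨P.mφ, fun a ha b hb hab => by rw [← P.r a ha, hab, P.r b hb],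
    fun y hy => ⟨f y, P.mf hy, P.l y hy⟩⟩
  have h2 : 0 < ‖deriv f 0‖ := norm_pos_iff.mpr (univ_deriv_ne_zero P.uf h00)
  have h1 := h W φ P.op P.dφ hb (f 0) (P.mf h00) (P.l 0 h00) (t * ‖deriv f 0‖) (by positivity)
  rw [P.der 0 h00, norm_inv, mul_inv_cancel_right₀ h2.ne'] at h1
  refine h1.trans (ENNReal.ofReal_le_ofReal ?_)
  have h3 := dist_le P.uf h00
  rw [P.im, norm_zero, sub_zero, one_mul] at h3
  have h4 := P.d_pos h00
  refine (mul_le_mul_of_nonneg_left (min_le_left _ _) (by positivity)).trans ?_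
  have h5 : infDist (f 0) Wᶜ ^ 2 ≤ (4 * ‖deriv f 0‖) ^ 2 := by gcongr
  have e : (t * ‖deriv f 0‖) ^ (-4 : ℝ) = ((t * ‖deriv f 0‖) ^ 4)⁻¹ := by
    rw [Real.rpow_neg (by positivity)]
    norm_num
  rw [e]
  calc C / ‖deriv f 0‖⁻¹ ^ 2 * ((t * ‖deriv f 0‖) ^ 4)⁻¹
      = 16 * C / (4 * ‖deriv f 0‖) ^ 2 / t ^ 4 := by field_simp; ring
    _ ≤ _ := by gcongr

/-- **Weak type four** for the maximal function of the harmonic measure. -/
theorem weak_four : ∃ C : ℝ, 0 < C ∧ ∀ (W : Set ℂ) (φ f : ℂ → ℂ), Pair W φ f → ∀ l : ℝ, 0 < l →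
    volume {x | ∃ r : ℝ, 0 < r ∧ ENNReal.ofReal (l * r) < hm f (ball x r)} ≤
      ENNReal.ofReal (C / (l ^ 4 * infDist (f 0) Wᶜ ^ 2)) := by
  obtain ⟨C, hC, h⟩ := Pair.weak
  have hK := KB_pos
  refine ⟨25 * (8 * KB * (4 / 3 * C * (8 * KB) ^ 3) + 4 * π * 48 ^ 2), by positivity,
    fun W φ f P l hl => ?_⟩
  have h00 : (0 : ℂ) ∈ ball (0 : ℂ) 1 := mem_ball_self one_pos
  have := hm_prob P.uf
  have hd := P.d_pos h00
  set d : ℝ := infDist (f 0) Wᶜ with hdd
  set lam : ℝ := l / (8 * KB) with hlam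
  have hlam0 : 0 < lam := by positivity
  have hY : Measurable fun w => ‖deriv φ w‖ := (measurable_deriv φ).norm
  have hS : MeasurableSet ({w | lam < ‖deriv φ w‖} ∩ W) :=
    (measurableSet_lt measurable_const hY).inter P.op.measurableSet
  have h1 := tail_le hY (fun _ => norm_nonneg _) (A := C / d ^ 2) (by positivity) (h W φ f P) hlam0
  set κ1 : Measure ℂ := (volume.restrict ({w | lam < ‖deriv φ w‖} ∩ W)).withDensity
    fun w => ENNReal.ofReal ‖deriv φ w‖ with hκ1
  choose! r hr0 hr using fun x (hx : x ∈ {x | ∃ r : ℝ, 0 < r ∧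
    ENNReal.ofReal (l * r) < hm f (ball x r)}) => hx
  have hr1 : ∀ x ∈ {x | ∃ r : ℝ, 0 < r ∧ ENNReal.ofReal (l * r) < hm f (ball x r)},
      l * r x < 1 := fun x hx => ENNReal.ofReal_lt_one.mp ((hr x hx).trans_le prob_le_one)
  refine (vitali_vol (ρ := fun x => 2 * r x) (R := 2 / l) (fun x hx => ⟨by linarith [hr0 x hx], by
    rw [le_div_iff₀ hl]; linarith [hr1 x hx]⟩) (ENNReal.ofReal (8 * KB / l) • κ1 +
      ENNReal.ofReal (4 * π * 48 ^ 2 / (l ^ 4 * d ^ 2)) • hm f) fun x hx => ?_).trans ?_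
  · have h2 := hr0 x hx
    have h3 := hr x hx
    have h4 := hr1 x hx
    rw [cball_vol (by positivity), Measure.add_apply, Measure.smul_apply, Measure.smul_apply,
      smul_eq_mul, smul_eq_mul]
    by_cases hs : 48 * r x ≤ d
    · refine le_trans ?_ le_self_add
      obtain ⟨ζ, hζ1, hζ2⟩ : ∃ ζ ∈ ball x (r x), ζ ∉ W := by
        by_contra hc
        push Not at hc
        have h5 : hm f (ball x (r x)) = 0 := by
          refine measure_mono_null ?_ P.isHarm.2.1
          intro y hy hy'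
          rw [P.op.frontier_eq] at hy'
          exact hy'.2 (hc y hy)
        rw [h5] at h3
        exact not_lt_bot h3
      have h5 := P.ball_le (x := x) h2 fun θ => by
        have h6 := lower_growth P.uf (P.omit hζ2)
          (circleMap_mem_unit (s := 1 / 2) (by norm_num) (by norm_num) θ)
        rw [norm_circleMap_zero, abs_of_pos (by norm_num)] at h6
        have h7 : d ≤ ‖f 0 - ζ‖ := by
          rw [← dist_eq_norm]
          exact infDist_le_dist_of_mem hζ2
        have h8 := norm_sub_le_norm_sub_add_norm_sub (f (circleMap 0 (1 / 2) θ)) x ζ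
        have h9 : ‖x - ζ‖ < r x := by
          rw [norm_sub_rev]
          exact mem_ball_iff_norm.mp hζ1
        linarith
      have h6 : ∫⁻ w in W, (closedBall x (2 * r x)).indicator (fun w => ‖deriv φ w‖ₑ) w ≤
          ENNReal.ofReal (lam * (π * (2 * r x) ^ 2)) + κ1 (closedBall x (2 * r x)) := by
        rw [hκ1, withDensity_apply _ measurableSet_closedBall,
          Measure.restrict_restrict measurableSet_closedBall, ENNReal.ofReal_mul hlam0.le,
          ← cball_vol (c := x) (by positivity), ← setLIntegral_const,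
          ← lintegral_indicator measurableSet_closedBall,
          ← lintegral_indicator (measurableSet_closedBall.inter hS),
          ← lintegral_add_left (measurable_const.indicator measurableSet_closedBall),
          ← lintegral_indicator P.op.measurableSet]
        refine lintegral_mono fun w => ?_
        by_cases a1 : w ∈ W
        · by_cases a2 : w ∈ closedBall x (2 * r x)
          · rw [indicator_of_mem a1, indicator_of_mem a2, indicator_of_mem a2, ← ofReal_norm]
            by_cases a3 : lam < ‖deriv φ w‖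
            · rw [indicator_of_mem (show w ∈ closedBall x (2 * r x) ∩
                ({w | lam < ‖deriv φ w‖} ∩ W) from ⟨a2, a3, a1⟩)]
              exact le_add_self
            · exact le_trans (ENNReal.ofReal_le_ofReal (not_lt.mp a3)) le_self_add
          · rw [indicator_of_mem a1, indicator_of_notMem a2]
            exact zero_le
        · rw [indicator_of_notMem a1]
          exact zero_le
      by_cases hJ : κ1 (closedBall x (2 * r x)) = ⊤
      · rw [hJ, ENNReal.mul_top (by simpa using by positivity)]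
        exact le_top
      have h7 := h3.trans_le (h5.trans (mul_le_mul_right h6 _))
      rw [← ENNReal.ofReal_toReal hJ] at h7 ⊢
      have h8 := ENNReal.toReal_nonneg (a := κ1 (closedBall x (2 * r x)))
      generalize (κ1 (closedBall x (2 * r x))).toReal = J at h7 h8 ⊢
      rw [← ENNReal.ofReal_add (by positivity) h8, ← ENNReal.ofReal_mul (by positivity),
        ENNReal.ofReal_lt_ofReal_iff_of_nonneg (by positivity)] at h7
      rw [← ENNReal.ofReal_mul (by positivity)]
      apply ENNReal.ofReal_le_ofReal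
      have e : KB / (π * r x) * (lam * (π * (2 * r x) ^ 2) + J) =
          l * r x / 2 + KB * J / (π * r x) := by
        rw [hlam]
        field_simp
        ring
      rw [e] at h7
      have h9 : l * r x / 2 < KB * J / (π * r x) := by linarith
      rw [lt_div_iff₀ (by positivity)] at h9
      rw [div_mul_eq_mul_div, le_div_iff₀ hl]
      nlinarith
    · refine le_trans ?_ le_add_self
      refine le_trans ?_ (mul_le_mul_right (h3.le.trans (measure_mono
        (ball_subset_closedBall.trans (closedBall_subset_closedBall (by linarith))))) _)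
      rw [← ENNReal.ofReal_mul (by positivity)]
      apply ENNReal.ofReal_le_ofReal
      rw [div_mul_eq_mul_div, le_div_iff₀ (by positivity)]
      have h5 : d ^ 2 ≤ (48 * r x) ^ 2 := by gcongr; linarith
      have h6 : (l * r x) ^ 3 ≤ 1 := pow_le_one₀ (by positivity) h4.le
      calc π * (2 * r x) ^ 2 * (l ^ 4 * d ^ 2) ≤ π * (2 * r x) ^ 2 * (l ^ 4 * (48 * r x) ^ 2) := by
            gcongr
        _ = 4 * π * 48 ^ 2 * (l * r x) * (l * r x) ^ 3 := by ring
        _ ≤ 4 * π * 48 ^ 2 * (l * r x) * 1 := by gcongr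
        _ = _ := mul_one _
  · rw [Measure.add_apply, Measure.smul_apply, Measure.smul_apply, smul_eq_mul, smul_eq_mul,
      measure_univ (μ := hm f), mul_one, hκ1, withDensity_apply _ MeasurableSet.univ, Measure.restrict_univ]
    refine (mul_le_mul_right (add_le_add_left (mul_le_mul_right h1 _) _) 25).trans (le_of_eq ?_)
    have : (25 : ℝ≥0∞) = ENNReal.ofReal 25 := by simp
    rw [this, ← ENNReal.ofReal_mul (by positivity),
      ← ENNReal.ofReal_add (by positivity) (by positivity), ← ENNReal.ofReal_mul (by positivity)]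
    congr 1
    rw [hlam]
    field_simp

end

end Vale.Agent.N142H
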