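import Vale.Agent.N142H.Conc

/-!
P142, harmonic measure form: normalised arc length, the Poisson kernel and Moebius maps.
-/

open Complex MeasureTheory Metric Set Filter Topology
open scoped Real ComplexConjugate ENNReal

namespace Vale.Agent.N142H

open Vale.Agent.P142 Vale.Agent.P142.H838 Vale.Agent.N142

noncomputable section

variable {z : ℂ}

/-- Normalised Lebesgue measure on `(-π, π)`. -/
def nu : Measure ℝ := (ENNReal.ofReal (2 * π))⁻¹ • volume.restrict (Ioo (-π) π)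

lemma two_pi_ne : ENNReal.ofReal (2 * π) ≠ 0 := by
  simpa using Real.pi_pos

instance : IsProbabilityMeasure nu := ⟨by
  rw [nu, Measure.smul_apply, Measure.restrict_apply_univ, Real.volume_Ioo, smul_eq_mul,
    show π - -π = 2 * π by ring]
  exact ENNReal.inv_mul_cancel two_pi_ne ENNReal.ofReal_ne_top⟩

lemma ae_nu {p : ℝ → Prop} (h : ∀ᵐ θ ∂(volume.restrict (Ioo (-π) π)), p θ) : ∀ᵐ θ ∂nu, p θ :=
  Measure.ae_smul_measure h _

lemma lint_nu (G : ℝ → ℝ≥0∞) :
    ∫⁻ θ, G θ ∂nu = (ENNReal.ofReal (2 * π))⁻¹ * ∫⁻ θ in Ioo (-π) π, G θ := by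
  rw [nu, lintegral_smul_measure, smul_eq_mul]

lemma int_nu {E : Type*} [NormedAddCommGroup E] [NormedSpace ℝ E] (G : ℝ → E) :
    ∫ θ, G θ ∂nu = (2 * π)⁻¹ • ∫ θ in (-π)..π, G θ := by
  rw [nu, integral_smul_measure, intervalIntegral.integral_of_le (by linarith [Real.pi_pos]),
    integral_Ioc_eq_integral_Ioo, ENNReal.toReal_inv, ENNReal.toReal_ofReal (by positivity)]

lemma avg_nu {E : Type*} [NormedAddCommGroup E] [NormedSpace ℝ E] (G : ℂ → E) (r : ℝ) :
    ∫ θ, G (circleMap 0 r θ) ∂nu = Real.circleAverage G 0 r := by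
  rw [int_nu, Real.circleAverage_eq_integral_add (-π),
    intervalIntegral.integral_comp_add_right (fun θ => G (circleMap 0 r θ)), zero_add,
    show 2 * π + -π = π by ring]

lemma circ_int {G : ℂ → ℝ} (h : Integrable (fun θ => G (circleMap 0 1 θ)) nu) :
    CircleIntegrable G 0 1 := by
  rw [nu, integrable_smul_measure (ENNReal.inv_ne_zero.mpr ENNReal.ofReal_ne_top)
    (ENNReal.inv_ne_top.mpr two_pi_ne)] at h
  have hp : Function.Periodic (fun θ => G (circleMap 0 1 θ)) (2 * π) := fun θ => by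
    simp only [periodic_circleMap 0 1 θ]
  refine hp.intervalIntegrable (t := -π) (by positivity) ?_ _ _
  rw [show -π + 2 * π = π by ring,
    intervalIntegrable_iff_integrableOn_Ioo_of_le (by linarith [Real.pi_pos])]
  exact h

/-- The Poisson kernel. -/
def pk (z : ℂ) (θ : ℝ) : ℝ := (1 - ‖z‖ ^ 2) / ‖circleMap 0 1 θ - z‖ ^ 2

lemma cm_sub_ne (hz : z ∈ ball (0 : ℂ) 1) (θ : ℝ) : circleMap 0 1 θ - z ≠ 0 :=
  sub_ne_zero.mpr (circleMap_ne_mem_ball hz θ)

lemma pk_cont (hz : z ∈ ball (0 : ℂ) 1) : Continuous (pk z) :=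
  continuous_const.div (((continuous_circleMap 0 1).sub continuous_const).norm.pow 2)
    fun θ => pow_ne_zero _ (norm_ne_zero_iff.mpr (cm_sub_ne hz θ))

lemma pk_nonneg (hz : z ∈ ball (0 : ℂ) 1) (θ : ℝ) : 0 ≤ pk z θ :=
  div_nonneg (unit_pos hz).le (sq_nonneg _)

lemma pk_le (hz : z ∈ ball (0 : ℂ) 1) (θ : ℝ) : pk z θ ≤ 2 / (1 - ‖z‖) := by
  have h1 := one_sub_pos hz
  have h2 : 1 - ‖z‖ ≤ ‖circleMap 0 1 θ - z‖ := by
    have := norm_sub_norm_le (circleMap 0 1 θ) z
    rwa [norm_cm] at this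
  have h3 : (1 - ‖z‖) ^ 2 ≤ ‖circleMap 0 1 θ - z‖ ^ 2 := by gcongr
  rw [pk, div_le_div_iff₀ (by nlinarith) h1]
  nlinarith [norm_nonneg z]

lemma pk_zero (θ : ℝ) : pk 0 θ = 1 := by
  rw [pk, sub_zero (circleMap 0 1 θ), norm_cm]
  simp

lemma pk_eq (z : ℂ) (θ : ℝ) : (re ∘ herglotzRieszKernel 0 z) (circleMap 0 1 θ) = pk z θ := by
  rw [← poissonKernel_eq_re_herglotzRieszKernel, poissonKernel_def, sub_zero, sub_zero, norm_cm,
    one_pow, pk]

/-- The Moebius map sending `0` to `z`. -/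
def mb (z u : ℂ) : ℂ := (u + z) / (1 + conj z * u)

lemma den_re (hz : z ∈ ball (0 : ℂ) 1) {u : ℂ} (hu : ‖u‖ ≤ 1) : 0 < (1 + conj z * u).re := by
  rw [mem_ball_zero_iff] at hz
  have h1 : ‖conj z * u‖ < 1 := by
    rw [norm_mul, RCLike.norm_conj]
    nlinarith [norm_nonneg z, norm_nonneg u]
  have h2 := (abs_le.mp (abs_re_le_norm (conj z * u))).1
  rw [add_re, one_re]
  linarith

lemma den_ne' (hz : z ∈ ball (0 : ℂ) 1) {u : ℂ} (hu : ‖u‖ ≤ 1) : 1 + conj z * u ≠ 0 := fun h => by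
  have := den_re hz hu
  rw [h] at this
  simp at this

lemma norm_mb_le (hz : z ∈ ball (0 : ℂ) 1) {u : ℂ} (hu : ‖u‖ ≤ 1) : ‖mb z u‖ ≤ 1 := by
  have h := den_ne' hz hu
  have hz' := unit_pos hz
  have hu' : 0 ≤ 1 - ‖u‖ ^ 2 := by nlinarith [norm_nonneg u]
  rw [mb, norm_div, div_le_one (norm_pos_iff.mpr h)]
  have h1 : ‖1 + conj z * u‖ ^ 2 - ‖u + z‖ ^ 2 = (1 - ‖z‖ ^ 2) * (1 - ‖u‖ ^ 2) := by
    have e : ∀ w : ℂ, ‖w‖ ^ 2 = w.re ^ 2 + w.im ^ 2 := fun w => by
      rw [← normSq_eq_norm_sq, normSq_apply]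
      ring
    rw [e, e, e, e]
    simp only [add_re, one_re, mul_re, conj_re, conj_im, neg_mul, sub_neg_eq_add, add_im, one_im,
      mul_im, zero_add]
    ring
  have h2 : ‖u + z‖ ^ 2 ≤ ‖1 + conj z * u‖ ^ 2 := by nlinarith [mul_nonneg hz'.le hu']
  exact le_of_sq_le_sq h2 (norm_nonneg _)

lemma mb_contOn (hz : z ∈ ball (0 : ℂ) 1) : ContinuousOn (mb z) (closedBall 0 1) :=
  ContinuousOn.div (by fun_prop) (by fun_prop) fun _ hu =>
    den_ne' hz (mem_closedBall_zero_iff.mp hu)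

lemma mb_mb (hz : z ∈ ball (0 : ℂ) 1) {u : ℂ} (hu : ‖u‖ ≤ 1) : mb z (mb (-z) u) = u := by
  have hz' : -z ∈ ball (0 : ℂ) 1 := by simpa using hz
  have h1 := den_ne' hz' hu
  have h2 := den_ne' hz (norm_mb_le hz' hu)
  rw [mb, div_eq_iff h2]
  have h3 : mb (-z) u * (1 + conj (-z) * u) = u + -z := div_mul_cancel₀ _ h1
  apply mul_right_cancel₀ h1
  rw [map_neg] at h3 ⊢
  linear_combination (1 - u * conj z) * h3

lemma mb_univ (hz : z ∈ ball (0 : ℂ) 1) : Univ (mb z) := by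
  refine ⟨mob_diff hz, fun a ha b hb hab => ?_⟩
  have hz' : -z ∈ ball (0 : ℂ) 1 := by simpa using hz
  have h1 := mb_mb hz' (mem_ball_zero_iff.mp ha).le
  have h2 := mb_mb hz' (mem_ball_zero_iff.mp hb).le
  rw [neg_neg] at h1 h2
  rw [← h1, ← h2, hab]

/-- The Moebius map on the circle, in terms of angles. -/
lemma exists_lift (hz : z ∈ ball (0 : ℂ) 1) : ∃ ψ : ℝ → ℝ,
    (∀ s, HasDerivAt ψ (pk z s) s) ∧ (∀ s, circleMap 0 1 (ψ s) = mb (-z) (circleMap 0 1 s)) ∧
    ψ π = ψ (-π) + 2 * π := by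
  have hz' : -z ∈ ball (0 : ℂ) 1 := by simpa using hz
  set Q : ℝ → ℂ := fun s => 1 + conj (-z) * circleMap 0 1 s with hQ
  have hQ1 : ∀ s, 0 < (Q s).re := fun s => den_re hz' (norm_cm s).le
  have hQ0 : ∀ s, Q s ≠ 0 := fun s => den_ne' hz' (norm_cm s).le
  have huu : ∀ s, circleMap 0 1 s * conj (circleMap 0 1 s) = 1 := fun s => by
    rw [mul_conj, normSq_eq_norm_sq, norm_cm]
    simp
  have hQc : ∀ s, circleMap 0 1 s * conj (Q s) = circleMap 0 1 s - z := fun s => by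
    simp only [hQ, map_add, map_one, map_mul, map_neg, conj_conj]
    linear_combination (-z) * huu s
  refine ⟨fun s => s - 2 * (log (Q s)).im, fun s => ?_, fun s => ?_, ?_⟩
  · have h1 : HasDerivAt Q (conj (-z) * (circleMap 0 1 s * I)) s :=
      ((hasDerivAt_circleMap 0 1 s).const_mul _).const_add 1
    have h2 := h1.clog_real (Or.inl (hQ1 s))
    have h3 := ((imCLM.hasFDerivAt.comp_hasDerivAt s h2).const_mul 2)
    refine ((hasDerivAt_id s).sub h3).congr_deriv ?_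
    have h4 : ‖circleMap 0 1 s - z‖ ^ 2 = normSq (Q s) := by
      rw [← hQc s, norm_mul, norm_cm, one_mul, RCLike.norm_conj, normSq_eq_norm_sq]
    have h5 : normSq (Q s) ≠ 0 := by simpa using hQ0 s
    have h6 : normSq (circleMap 0 1 s) = 1 := by rw [normSq_eq_norm_sq, norm_cm, one_pow]
    rw [pk, h4, imCLM_apply, div_im, ← normSq_eq_norm_sq]
    field_simp
    rw [normSq_apply] at h6
    simp only [hQ, normSq_apply, map_neg, add_re, one_re, mul_re, neg_re, conj_re, neg_im, conj_im,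
      add_im, one_im, mul_im, I_re, I_im]
    linear_combination (-(z.re ^ 2 + z.im ^ 2)) * h6
  · have h1 : cexp (log (Q s)) = Q s := exp_log (hQ0 s)
    have h2 : conj (Q s) = cexp (conj (log (Q s))) := by rw [exp_conj, h1]
    have h3 : ((s - 2 * (log (Q s)).im : ℝ) : ℂ) * I =
        s * I + (conj (log (Q s)) - log (Q s)) := by
      apply Complex.ext <;> simp
      ring
    rw [circleMap_zero, h3, exp_add, exp_sub, h1, ← h2, mb, ← sub_eq_add_neg, ← hQc s,
      circleMap_zero]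
    simp only [hQ, circleMap_zero]
    push_cast
    ring
  · have h1 : Q π = Q (-π) := by
      have := periodic_circleMap 0 1 (-π)
      rw [show -π + 2 * π = π by ring] at this
      simp only [hQ, this]
    simp only [h1]
    ring

/-- Change of variables on the circle. -/
lemma mob_avg (hz : z ∈ ball (0 : ℂ) 1) {G : ℂ → ℝ} (hG : ContinuousOn G (closedBall 0 1)) :
    ∫ θ, pk z θ * G (circleMap 0 1 θ) ∂nu = ∫ θ, G (mb z (circleMap 0 1 θ)) ∂nu := by
  obtain ⟨ψ, h1, h2, h3⟩ := exists_lift hz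
  have hc : Continuous fun t => G (mb z (circleMap 0 1 t)) :=
    hG.comp_continuous ((mb_contOn hz).comp_continuous (continuous_circleMap 0 1) fun t =>
      mem_closedBall_zero_iff.mpr (norm_cm t).le) fun t =>
      mem_closedBall_zero_iff.mpr (norm_mb_le hz (norm_cm t).le)
  have hp : Function.Periodic (fun t => G (mb z (circleMap 0 1 t))) (2 * π) := fun θ => by
    simp only [periodic_circleMap 0 1 θ]
  have h4 := intervalIntegral.integral_comp_mul_deriv (a := -π) (b := π) (fun s _ => h1 s)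
    (pk_cont hz).continuousOn hc
  rw [h3, hp.intervalIntegral_add_eq _ (-π), show -π + 2 * π = π by ring] at h4
  rw [int_nu, int_nu, ← h4]
  congr 2
  funext s
  rw [Function.comp_apply, h2, mb_mb hz (norm_cm s).le, mul_comm]

lemma pk_int (hz : z ∈ ball (0 : ℂ) 1) : ∫ θ, pk z θ ∂nu = 1 := by
  have h := mob_avg hz (G := fun _ => 1) continuousOn_const
  simpa using h

end

end Vale.Agent.N142H
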