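import Vale.Agent.N142.Geo
import Vale.Agent.N142H.Defs

/-!
P142, harmonic measure form: variation of a smooth function along the radii of the disc.
-/

open Complex MeasureTheory Metric Set Filter Topology
open scoped Real ComplexConjugate ENNReal

namespace Vale.Agent.N142H

open Vale.Agent.P142 Vale.Agent.P142.H838 Vale.Agent.N142

noncomputable section

variable {E : Type*} [NormedAddCommGroup E] [NormedSpace ℝ E] {U : ℂ → E} {f : ℂ → ℂ}

/-- The radii `1 - 1 / (n + 2)`. -/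
def rr (n : ℕ) : ℝ := 1 - 1 / ((n : ℝ) + 2)

lemma rr_ge (n : ℕ) : 1 / 2 ≤ rr n := by
  have h : (1 : ℝ) / ((n : ℝ) + 2) ≤ 1 / 2 :=
    one_div_le_one_div_of_le two_pos (by linarith [(Nat.cast_nonneg n : (0 : ℝ) ≤ n)])
  unfold rr
  linarith

lemma rr_pos (n : ℕ) : 0 < rr n := lt_of_lt_of_le (by norm_num) (rr_ge n)

lemma rr_lt (n : ℕ) : rr n < 1 := by
  have h : (0 : ℝ) < 1 / ((n : ℝ) + 2) := by positivity
  unfold rr
  linarith

lemma rr_mono {m n : ℕ} (h : m ≤ n) : rr m ≤ rr n := by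
  have h1 : (m : ℝ) ≤ n := by exact_mod_cast h
  have h2 : (1 : ℝ) / ((n : ℝ) + 2) ≤ 1 / ((m : ℝ) + 2) :=
    one_div_le_one_div_of_le (by positivity) (by linarith)
  unfold rr
  linarith

lemma rr_tendsto : Tendsto rr atTop (𝓝 1) := by
  have h : Tendsto (fun n : ℕ => 1 / ((n : ℝ) + 2)) atTop (𝓝 0) :=
    tendsto_const_nhds.div_atTop (tendsto_atTop_add_const_right _ _ tendsto_natCast_atTop_atTop)
  have h2 := (tendsto_const_nhds (x := (1 : ℝ))).sub h
  rw [sub_zero] at h2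
  exact h2

lemma circ_eq (r θ : ℝ) : circleMap 0 r θ = (r : ℂ) * circleMap 0 1 θ := by
  simp [circleMap_zero]

lemma norm_cm (θ : ℝ) : ‖circleMap 0 1 θ‖ = 1 := by
  rw [norm_circleMap_zero, abs_one]

/-- Variation along a radius. -/
lemma radial_le (hU : ContDiffOn ℝ 1 U (ball 0 1)) (θ : ℝ) {s t : ℝ} (hs : 0 ≤ s) (hst : s ≤ t)
    (ht : t < 1) : ‖U (circleMap 0 t θ) - U (circleMap 0 s θ)‖ₑ ≤
      ∫⁻ r in Ioo s 1, ‖fderiv ℝ U (circleMap 0 r θ)‖ₑ := by
  have hd : ∀ r : ℝ, HasDerivAt (fun r : ℝ => circleMap 0 r θ) (circleMap 0 1 θ) r := by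
    intro r
    have h1 : HasDerivAt (fun r : ℝ => (r : ℂ) * circleMap 0 1 θ) (1 * circleMap 0 1 θ) r :=
      (Complex.ofRealCLM.hasDerivAt (x := r)).mul_const _
    rw [one_mul] at h1
    exact h1.congr_of_eventuallyEq (Eventually.of_forall fun r => circ_eq r θ)
  have hc : ContDiff ℝ 1 (fun r : ℝ => circleMap 0 r θ) := by
    have h1 : (fun r : ℝ => circleMap 0 r θ) = fun r : ℝ => (r : ℂ) * circleMap 0 1 θ :=
      funext fun r => circ_eq r θ
    rw [h1]
    exact Complex.ofRealCLM.contDiff.mul contDiff_const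
  have hm : ∀ r ∈ Icc s t, circleMap 0 r θ ∈ ball (0 : ℂ) 1 := fun r hr =>
    circleMap_mem_unit (hs.trans hr.1) (hr.2.trans_lt ht) θ
  have h1 : ContDiffOn ℝ 1 (fun r : ℝ => U (circleMap 0 r θ)) (Icc s t) :=
    hU.comp hc.contDiffOn hm
  refine (enorm_sub_le_lintegral_deriv_of_contDiffOn_Icc h1 hst).trans ?_
  rw [← restrict_Ioo_eq_restrict_Icc]
  refine le_trans (setLIntegral_mono' measurableSet_Ioo fun r hr => ?_)
    (lintegral_mono_set (Ioo_subset_Ioo_right ht.le))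
  have h2 : HasFDerivAt U (fderiv ℝ U (circleMap 0 r θ)) (circleMap 0 r θ) :=
    ((hU.differentiableOn one_ne_zero).differentiableAt
      (isOpen_ball.mem_nhds (hm r (Ioo_subset_Icc_self hr)))).hasFDerivAt
  have h3 := h2.comp_hasDerivAt r (hd r)
  have h4 : deriv (fun r : ℝ => U (circleMap 0 r θ)) r =
      fderiv ℝ U (circleMap 0 r θ) (circleMap 0 1 θ) := h3.deriv
  rw [h4, ← ofReal_norm, ← ofReal_norm]
  apply ENNReal.ofReal_le_ofReal
  refine (ContinuousLinearMap.le_opNorm _ _).trans ?_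
  rw [norm_cm, mul_one]

lemma meas_inner {H : ℂ → ℝ≥0∞} (hH : Measurable H) (s : ℝ) :
    Measurable fun θ : ℝ => ∫⁻ r in Ioo s 1, H (circleMap 0 r θ) :=
  Measurable.lintegral_prod_left (f := fun r θ => H (circleMap 0 r θ))
    (hH.comp continuous_circleMap_uncurry.measurable)

/-- Polar coordinates on the outer half of the disc. -/
lemma polar_le {H : ℂ → ℝ≥0∞} (hH : Measurable H) :
    ∫⁻ θ in Ioo (-π) π, ∫⁻ r in Ioo (1 / 2 : ℝ) 1, H (circleMap 0 r θ) ≤
      2 * ∫⁻ z in ball (0 : ℂ) 1, H z := by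
  have hm : Measurable fun p : ℝ × ℝ => H (circleMap 0 p.1 p.2) :=
    hH.comp continuous_circleMap_uncurry.measurable
  rw [FF.lintegral_ball_polar hH, lintegral_lintegral_swap
    (f := fun θ r => H (circleMap 0 r θ)) (hm.comp measurable_swap).aemeasurable,
    ← lintegral_const_mul' _ _ (by norm_num)]
  refine le_trans (setLIntegral_mono' measurableSet_Ioo fun r hr => ?_)
    (lintegral_mono_set (Ioo_subset_Ioo_left (by norm_num : (0 : ℝ) ≤ 1 / 2)))
  rw [← mul_assoc]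
  refine le_mul_of_one_le_left' ?_
  have : (2 : ℝ≥0∞) = ENNReal.ofReal 2 := by simp
  rw [this, ← ENNReal.ofReal_mul (by norm_num), ← ENNReal.ofReal_one]
  exact ENNReal.ofReal_le_ofReal (by linarith [hr.1])

/-- Mean variation between the circle of radius `1 / 2` and a larger circle. -/
lemma mean_le [CompleteSpace E] (hU : ContDiffOn ℝ 1 U (ball 0 1)) {t : ℝ} (h1 : 1 / 2 ≤ t) (ht : t < 1) :
    ∫⁻ θ in Ioo (-π) π, ‖U (circleMap 0 t θ) - U (circleMap 0 (1 / 2) θ)‖ₑ ≤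
      2 * ∫⁻ z in ball (0 : ℂ) 1, ‖fderiv ℝ U z‖ₑ :=
  le_trans (lintegral_mono fun θ => radial_le hU θ (by norm_num) h1 ht)
    (polar_le (H := fun z => ‖fderiv ℝ U z‖ₑ) (measurable_fderiv ℝ U).enorm)

/-- Radial limits of a function with integrable gradient. -/
lemma ae_limit [CompleteSpace E] (hU : ContDiffOn ℝ 1 U (ball 0 1))
    (hI : ∫⁻ z in ball (0 : ℂ) 1, ‖fderiv ℝ U z‖ₑ ≠ ⊤) :
    ∀ᵐ θ ∂(volume.restrict (Ioo (-π) π)),
      ∃ l, Tendsto (fun n => U (circleMap 0 (rr n) θ)) atTop (𝓝 l) := by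
  have hH : Measurable fun z => ‖fderiv ℝ U z‖ₑ := (measurable_fderiv ℝ U).enorm
  have h1 := polar_le hH
  have h2 : ∫⁻ θ in Ioo (-π) π, ∫⁻ r in Ioo (1 / 2 : ℝ) 1, ‖fderiv ℝ U (circleMap 0 r θ)‖ₑ ≠ ⊤ :=
    ne_top_of_le_ne_top (ENNReal.mul_ne_top (by norm_num) hI) h1
  filter_upwards [ae_lt_top (meas_inner hH (1 / 2)) h2] with θ hθ
  apply cauchySeq_tendsto_of_complete
  rw [EMetric.cauchySeq_iff']
  intro ε hε
  have h3 : Tendsto ((volume.restrict (Ioo (1 / 2 : ℝ) 1)) ∘ fun n => Ioo (rr n) 1) atTop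
      (𝓝 0) := by
    have h4 : Tendsto (fun n => ENNReal.ofReal (1 - rr n)) atTop (𝓝 0) := by
      have := ENNReal.tendsto_ofReal ((tendsto_const_nhds (x := (1 : ℝ))).sub rr_tendsto)
      simpa using this
    refine tendsto_of_tendsto_of_tendsto_of_le_of_le tendsto_const_nhds h4
      (fun _ => zero_le) fun n => ?_
    refine (Measure.restrict_apply_le _ _).trans ?_
    rw [Real.volume_Ioo]
  obtain ⟨N, hN⟩ := eventually_atTop.mp
    ((tendsto_setLIntegral_zero hθ.ne h3).eventually (Iio_mem_nhds hε))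
  refine ⟨N, fun n hn => ?_⟩
  rw [edist_eq_enorm_sub]
  refine (radial_le hU θ (rr_pos N).le (rr_mono hn) (rr_lt n)).trans_lt ?_
  have h5 := hN N le_rfl
  rwa [Measure.restrict_restrict measurableSet_Ioo,
    inter_eq_left.mpr (Ioo_subset_Ioo_left (rr_ge N))] at h5

lemma contDiffOn_comp {T : ℂ → E} (hT : ContDiff ℝ 1 T) (hf : DifferentiableOn ℂ f (ball 0 1)) :
    ContDiffOn ℝ 1 (fun z => T (f z)) (ball 0 1) :=
  hT.comp_contDiffOn ((hf.contDiffOn isOpen_ball).restrict_scalars ℝ)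

lemma norm_fderiv_comp {T : ℂ → E} (hT : ContDiff ℝ 1 T) (hf : DifferentiableOn ℂ f (ball 0 1))
    {z : ℂ} (hz : z ∈ ball (0 : ℂ) 1) :
    ‖fderiv ℝ (fun z => T (f z)) z‖ ≤ ‖fderiv ℝ T (f z)‖ * ‖deriv f z‖ := by
  have h1 : HasFDerivAt f ((ContinuousLinearMap.toSpanSingleton ℂ (deriv f z)).restrictScalars ℝ)
      z := ((hf.differentiableAt (isOpen_ball.mem_nhds hz)).hasDerivAt.hasFDerivAt).restrictScalars ℝ
  have h2 : HasFDerivAt T (fderiv ℝ T (f z)) (f z) :=
    (hT.differentiable one_ne_zero (f z)).hasFDerivAt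
  have h3 : fderiv ℝ (fun z => T (f z)) z = (fderiv ℝ T (f z)).comp
      ((ContinuousLinearMap.toSpanSingleton ℂ (deriv f z)).restrictScalars ℝ) :=
    (h2.comp z h1).fderiv
  rw [h3]
  refine (ContinuousLinearMap.opNorm_comp_le _ _).trans (le_of_eq ?_)
  rw [ContinuousLinearMap.norm_restrictScalars, ContinuousLinearMap.norm_toSpanSingleton]

/-- The gradient of `T ∘ f` when the gradient of `T` is bounded by `M` and vanishes off `S`, and
`f` maps only points of `A` to where it does not vanish. -/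
lemma grad_le {T : ℂ → E} (hT : ContDiff ℝ 1 T) (hf : Univ f) {M τ : ℝ} (hτ : 0 < τ)
    (hM : ∀ w, ‖fderiv ℝ T w‖ ≤ M) {S A : Set ℂ} (hS : MeasurableSet S) (hA : MeasurableSet A)
    (h0 : ∀ w, w ∉ S → fderiv ℝ T w = 0)
    (h1 : ∀ z ∈ ball (0 : ℂ) 1, z ∉ A → fderiv ℝ T (f z) = 0) :
    ∫⁻ z in ball (0 : ℂ) 1, ‖fderiv ℝ (fun z => T (f z)) z‖ₑ ≤
      ENNReal.ofReal (M * τ) * volume (A ∩ ball 0 1) + ENNReal.ofReal (M / τ) * volume S := by
  have hM0 : 0 ≤ M := (norm_nonneg _).trans (hM 0)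
  have h2 : ∀ z ∈ ball (0 : ℂ) 1, ‖fderiv ℝ (fun z => T (f z)) z‖ₑ ≤
      A.indicator (fun _ => ENNReal.ofReal (M * τ)) z + ENNReal.ofReal (M / τ) *
        (ENNReal.ofReal (‖deriv f z‖ ^ 2) * S.indicator (fun _ => 1) (f z)) := by
    intro z hz
    have h3 := norm_fderiv_comp hT hf.1 hz
    rw [← ofReal_norm]
    by_cases h4 : fderiv ℝ T (f z) = 0
    · rw [h4, norm_zero, zero_mul] at h3
      rw [ENNReal.ofReal_of_nonpos h3]
      exact zero_le
    · have hzA : z ∈ A := by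
        by_contra h
        exact h4 (h1 z hz h)
      have hzS : f z ∈ S := by
        by_contra h
        exact h4 (h0 _ h)
      rw [indicator_of_mem hzA, indicator_of_mem hzS, mul_one,
        ← ENNReal.ofReal_mul (by positivity), ← ENNReal.ofReal_add (by positivity) (by positivity)]
      apply ENNReal.ofReal_le_ofReal
      refine h3.trans ((mul_le_mul_of_nonneg_right (hM _) (norm_nonneg _)).trans ?_)
      have h5 : ‖deriv f z‖ ≤ τ + ‖deriv f z‖ ^ 2 / τ := by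
        rw [← sub_le_iff_le_add', le_div_iff₀ hτ]
        nlinarith [norm_nonneg (deriv f z), sq_nonneg (‖deriv f z‖ - τ)]
      calc M * ‖deriv f z‖ ≤ M * (τ + ‖deriv f z‖ ^ 2 / τ) := by gcongr
        _ = _ := by ring
  refine (setLIntegral_mono' measurableSet_ball h2).trans ?_
  rw [lintegral_add_left (measurable_const.indicator hA), lintegral_indicator hA,
    setLIntegral_const, Measure.restrict_apply hA,
    lintegral_const_mul' _ _ ENNReal.ofReal_ne_top, ← change hf, lintegral_indicator hS,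
    setLIntegral_one]
  gcongr
  exact Measure.restrict_le_self

end

end Vale.Agent.N142H
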